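import Mathlib
import Crest.Prelude.Def_TwoWay

/-!
Existence of small nondeterministic automata (without left moves) for one-way liveness.
-/

set_option autoImplicit false

namespace Crest.Agent.R294

open Crest.TwoWay

theorem wordRel_append_singleton {h : ℕ} (w : List (Fin h → Fin h → Bool))
    (R : Fin h → Fin h → Bool) (a c : Fin h) :
    wordRel (w ++ [R]) a c ↔ ∃ b, wordRel w a b ∧ R b c = true := by
  induction w generalizing a with
  | nil =>
    simp only [List.nil_append, wordRel]
    constructor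
    · rintro ⟨b, hb, rfl⟩
      exact ⟨a, rfl, hb⟩
    · rintro ⟨b, rfl, hb⟩
      exact ⟨c, hb, rfl⟩
  | cons S w ih =>
    simp only [List.cons_append, wordRel, ih]
    constructor
    · rintro ⟨b, hb, d, hd, hR⟩
      exact ⟨d, ⟨b, hb, hd⟩, hR⟩
    · rintro ⟨d, ⟨b, hb, hd⟩, hR⟩
      exact ⟨b, hb, d, hd, hR⟩

/-- The guessing automaton: states `< h` are points, `h` is the start state, `h + 1` accepts. -/
def liveNFA (h m : ℕ) (hm : h + 2 ≤ m) : TwoWayNFA (Fin h → Fin h → Bool) (Fin m) where
  start := ⟨h, by omega⟩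
  accept := {q | q.val = h + 1}
  step q c :=
    match c with
    | Cell.leftEnd => {p | q.val = h ∧ p.1.val < h ∧ p.2 = HeadMove.moveRight}
    | Cell.letter R => {p | ∃ (a b : Fin h), q.val = a.val ∧ p.1.val = b.val ∧ R a b = true ∧
        p.2 = HeadMove.moveRight}
    | Cell.rightEnd => {p | q.val < h ∧ p.1.val = h + 1 ∧ p.2 = HeadMove.stay}

theorem liveNFA_noLeft (h m : ℕ) (hm : h + 2 ≤ m) : (liveNFA h m hm).NoLeftMoves := by
  intro q c p hp
  cases c with
  | leftEnd =>
    obtain ⟨_, _, h3⟩ := hp
    rw [h3]; decide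
  | letter R =>
    obtain ⟨a, b, _, _, _, h3⟩ := hp
    rw [h3]; decide
  | rightEnd =>
    obtain ⟨_, _, h3⟩ := hp
    rw [h3]; decide

theorem scan_succ_of_lt {α : Type*} (w : List α) (i : ℕ) (hi : i < w.length) :
    scan w (i + 1) = Cell.letter w[i] := by
  simp [scan, List.getElem?_eq_getElem hi]

theorem scan_succ_of_ge {α : Type*} (w : List α) (i : ℕ) (hi : w.length ≤ i) :
    scan w (i + 1) = Cell.rightEnd := by
  simp [scan, List.getElem?_eq_none hi]

theorem scan_zero {α : Type*} (w : List α) : scan w 0 = Cell.leftEnd := by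
  simp [scan]

theorem liveNFA_invariant (h m : ℕ) (hm : h + 2 ≤ m) (w : List (Fin h → Fin h → Bool))
    (c : Fin m × ℕ)
    (hc : Relation.ReflTransGen ((liveNFA h m hm).Step w) ((liveNFA h m hm).start, 0) c) :
    (c.1.val = h ∧ c.2 = 0) ∨
      (∃ (a b : Fin h) (i : ℕ), c.1.val = b.val ∧ c.2 = i + 1 ∧ i ≤ w.length ∧
        wordRel (w.take i) a b) ∨
      (c.1.val = h + 1 ∧ w ∈ liveness h) := by
  induction hc with
  | refl => left; exact ⟨rfl, rfl⟩
  | @tail c d _ hstep ih =>
    obtain ⟨mv, hmem, hmove⟩ := hstep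
    rcases ih with ⟨h1, h2⟩ | ⟨a, b, i, h1, h2, h3, h4⟩ | ⟨h1, h2⟩
    · rw [h2, scan_zero] at hmem
      obtain ⟨_, hlt, hmv⟩ := hmem
      simp only at hmv hlt
      subst hmv
      rw [h2] at hmove
      simp only [movePos] at hmove
      right; left
      refine ⟨⟨d.1.val, hlt⟩, ⟨d.1.val, hlt⟩, 0, rfl, ?_, Nat.zero_le _, ?_⟩
      · split_ifs at hmove with hh
        simpa using hmove.symm
      · simp [wordRel]
    · rcases Nat.lt_or_ge i w.length with hi | hi
      · rw [h2, scan_succ_of_lt w i hi] at hmem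
        obtain ⟨a', b', e1, e2, hR, hmv⟩ := hmem
        simp only at hmv e2
        subst hmv
        rw [h2] at hmove
        simp only [movePos] at hmove
        have hab : a' = b := Fin.ext (by omega)
        subst hab
        right; left
        refine ⟨a, b', i + 1, e2, ?_, hi, ?_⟩
        · split_ifs at hmove with hh
          simpa using hmove.symm
        · rw [List.take_add_one, List.getElem?_eq_getElem hi]
          simp only [Option.toList_some]
          rw [wordRel_append_singleton]
          exact ⟨a', h4, hR⟩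
      · rw [h2, scan_succ_of_ge w i hi] at hmem
        obtain ⟨_, e2, _⟩ := hmem
        right; right
        refine ⟨e2, a, b, ?_⟩
        rwa [List.take_of_length_le hi] at h4
    · exfalso
      generalize scan w c.2 = cell at hmem
      cases cell with
      | leftEnd =>
        obtain ⟨e, _, _⟩ := hmem
        omega
      | letter R =>
        obtain ⟨a, b, e, _, _, _⟩ := hmem
        have := a.isLt
        omega
      | rightEnd =>
        obtain ⟨e, _, _⟩ := hmem
        omega

theorem liveNFA_reach (h m : ℕ) (hm : h + 2 ≤ m) (w : List (Fin h → Fin h → Bool))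
    (i : ℕ) (hi : i ≤ w.length) (a b : Fin h) (hab : wordRel (w.take i) a b) :
    Relation.ReflTransGen ((liveNFA h m hm).Step w) ((liveNFA h m hm).start, 0)
      (⟨b.val, by have := b.isLt; omega⟩, i + 1) := by
  induction i generalizing b with
  | zero =>
    refine Relation.ReflTransGen.single ⟨HeadMove.moveRight, ?_, ?_⟩
    · simp only [scan_zero]
      exact ⟨rfl, b.isLt, rfl⟩
    · simp [movePos]
  | succ i ih =>
    have hi' : i < w.length := hi
    rw [List.take_add_one, List.getElem?_eq_getElem hi'] at hab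
    simp only [Option.toList_some] at hab
    rw [wordRel_append_singleton] at hab
    obtain ⟨c, hc, hR⟩ := hab
    refine (ih hi'.le c hc).tail ⟨HeadMove.moveRight, ?_, ?_⟩
    · simp only [scan_succ_of_lt w i hi']
      exact ⟨c, b, rfl, rfl, hR, rfl⟩
    · simp only [movePos]
      rw [if_neg (by omega)]

theorem liveNFA_language (h m : ℕ) (hm : h + 2 ≤ m) :
    (liveNFA h m hm).language = liveness h := by
  ext w
  constructor
  · rintro ⟨c, hc, hacc⟩
    have hacc' : c.1.val = h + 1 := hacc
    rcases liveNFA_invariant h m hm w c hc with ⟨h1, _⟩ | ⟨a, b, i, h1, _⟩ | ⟨_, h2⟩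
    · omega
    · have := b.isLt
      omega
    · exact h2
  · rintro ⟨a, b, hab⟩
    have h1 := liveNFA_reach h m hm w w.length le_rfl a b (by rwa [List.take_length])
    refine ⟨(⟨h + 1, by omega⟩, w.length + 1), h1.tail ⟨HeadMove.stay, ?_, ?_⟩, rfl⟩
    · simp only [scan_succ_of_ge w w.length le_rfl]
      exact ⟨b.isLt, rfl, rfl⟩
    · simp [movePos]

theorem exists_nfa_n (n : ℕ) (hn : 4 ≤ n) :
    ∃ A : TwoWayNFA (Fin (n - 2) → Fin (n - 2) → Bool) (Fin n),
      A.language = liveness (n - 2) :=
  ⟨liveNFA (n - 2) n (by omega), liveNFA_language _ _ _⟩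

theorem exists_nfa_h3 (h : ℕ) :
    ∃ A : TwoWayNFA (Fin h → Fin h → Bool) (Fin (h + 3)),
      A.NoLeftMoves ∧ A.language = liveness h :=
  ⟨liveNFA h (h + 3) (by omega), liveNFA_noLeft _ _ _, liveNFA_language _ _ _⟩

end Crest.Agent.R294
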