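import Crest.Agent.R294.Core
import Crest.Agent.R294.Exist

set_option autoImplicit false

/-!
Two-way automata as diagrams, and the two lower bounds.
-/

namespace Crest.Agent.R294

open Relation Crest.TwoWay

universe u

section tape

variable {P : Type u} {dir : P → Bool}

/-- The graph of a tape with `n` cells. -/
def tapeG (f : ℕ → Dg dir) (n : ℕ) (u v : ℕ × P) : Prop := ∃ k < n, place (f k) k (k + 1) u v

theorem tape_iff (f : ℕ → Dg dir) (n : ℕ) (p q : P) :
    (((List.range (n + 1)).map f).prod).r p q ↔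
      ReflTransGen (tapeG f (n + 1)) (src dir 0 (n + 1) p) (tgt dir 0 (n + 1) q) := by
  induction n generalizing p q with
  | zero =>
    simp only [zero_add, List.range_one, List.map_cons, List.map_nil, List.prod_cons,
      List.prod_nil, mul_one]
    constructor
    · intro h
      exact .single ⟨0, by omega, place_src_tgt.2 h⟩
    · intro h
      refine single_cell (i := 0) (j := 1) (by omega) (rtg_mono ?_ h)
      rintro a b ⟨k, hk, hab⟩
      obtain rfl : k = 0 := by omega
      exact hab
  | succ n ih =>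
    rw [List.range_succ, List.map_append, List.prod_append]
    simp only [List.map_cons, List.map_nil, List.prod_cons, List.prod_nil, mul_one]
    rw [mul_r_iff _ _ (i := 0) (j := n + 1) (k := n + 1 + 1) (by omega) (by omega) (by omega)]
    constructor
    · intro h
      refine rtg_mono' (fun a b hab => ?_) h
      rcases hab with hab | hab
      · obtain ⟨h1, h2, h3⟩ := place_iff.1 hab
        rw [h1, h2]
        refine rtg_mono ?_ ((ih _ _).1 h3)
        rintro a b ⟨k, hk, hab⟩
        exact ⟨k, by omega, hab⟩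
      · exact .single ⟨n + 1, by omega, hab⟩
    · intro h
      refine rtg_contract (H := place (f (n + 1)) (n + 1) (n + 1 + 1)) (K := tapeG f (n + 1))
        (fun a => 0 < a.1 ∧ a.1 < n + 1) ?_ ?_ (fun a b hab => Or.inr hab) ?_ ?_ ?_ h
      · rintro a b ⟨k, hk, hab⟩
        by_cases e : k = n + 1
        · subst e; exact Or.inl hab
        · exact Or.inr ⟨k, by omega, hab⟩
      · intro a b hab
        have := place_rows hab
        omega
      · intro a b ha hb hab
        left
        have h1 : a = src dir 0 (n + 1) a.2 := by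
          obtain ⟨c, ⟨k, hk, hc⟩, -⟩ := TransGen.head'_iff.1 hab
          obtain ⟨a1, a2⟩ := a
          have := hc.1
          simp only [src, Prod.mk.injEq, and_true]
          revert this ha
          cases dir a2 <;> simp <;> omega
        have h2 : b = tgt dir 0 (n + 1) b.2 := by
          obtain ⟨c, -, ⟨k, hk, hc⟩⟩ := TransGen.tail'_iff.1 hab
          obtain ⟨a1, a2⟩ := b
          have := hc.2.1
          simp only [tgt, Prod.mk.injEq, and_true]
          revert this hb
          cases dir a2 <;> simp <;> omega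
        refine place_iff.2 ⟨h1, h2, (ih _ _).2 ?_⟩
        rw [← h1, ← h2]
        exact hab.to_reflTransGen
      · have := src_row (dir := dir) 0 (n + 1 + 1) p
        omega
      · have := tgt_row (dir := dir) 0 (n + 1 + 1) q
        omega

end tape

section auto

variable {α : Type} {σ : Type u}

/-- A non-accepting state performs a stay move. -/
def stayS (M : TwoWayNFA α σ) (c : Cell α) (q q' : σ) : Prop :=
  q ∉ M.accept ∧ (q', HeadMove.stay) ∈ M.step q c

/-- Leaving a cell. -/
def exitS (M : TwoWayNFA α σ) (c : Cell α) (q : σ) (p : Option σ × Bool) : Prop :=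
  (q ∈ M.accept ∧ p = (none, true)) ∨
    (q ∉ M.accept ∧ ∃ q'', ((q'', HeadMove.moveRight) ∈ M.step q c ∧ p = (some q'', true)) ∨
      ((q'', HeadMove.moveLeft) ∈ M.step q c ∧ p = (some q'', false)))

/-- The diagram of one cell. -/
def cellDg (M : TwoWayNFA α σ) (c : Cell α) : Dg (Prod.snd : Option σ × Bool → Bool) :=
  ⟨fun p p' => (p = (none, true) ∧ p' = (none, true)) ∨
    ∃ q q', p.1 = some q ∧ ReflTransGen (stayS M c) q q' ∧ exitS M c q' p'⟩

theorem cellDg_det {M : TwoWayNFA α σ} (hM : M.IsDeterministic) (c : Cell α) :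
    Det (cellDg M c) := by
  have hex : ∀ q p, exitS M c q p → ∀ b, ¬ stayS M c q b := by
    rintro q p (⟨h, -⟩ | ⟨-, q'', ⟨h, -⟩ | ⟨h, -⟩⟩) b hb
    · exact hb.1 h
    · have := hM q c h hb.2; simp at this
    · have := hM q c h hb.2; simp at this
  rintro p z z' (⟨h1, rfl⟩ | ⟨q, q', h1, h2, h3⟩) (⟨h4, rfl⟩ | ⟨r, r', h4, h5, h6⟩)
  · rfl
  · rw [h1] at h4; simp at h4
  · rw [h4] at h1; simp at h1
  · obtain rfl : q = r := by simpa [h1] using h4
    obtain rfl : q' = r' := sink_unique (G := stayS M c) (fun a b b' h h' => by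
      have := hM a c h.2 h'.2; simpa using this) h2 h5 (hex _ _ h3) (hex _ _ h6)
    rcases h3 with ⟨a, rfl⟩ | ⟨a, x, ⟨b, rfl⟩ | ⟨b, rfl⟩⟩ <;>
      rcases h6 with ⟨a', rfl⟩ | ⟨a', x', ⟨b', rfl⟩ | ⟨b', rfl⟩⟩ <;>
      first
      | rfl
      | exact absurd a a'
      | exact absurd a' a
      | (have := hM _ c b b'; simp_all)

theorem stay_reach (M : TwoWayNFA α σ) (w : List α) (j : ℕ) {q q' : σ}
    (h : ReflTransGen (stayS M (scan w j)) q q') : ReflTransGen (M.Step w) (q, j) (q', j) :=
  rtg_lift (fun x => (x, j)) (fun _ _ hab => .single ⟨HeadMove.stay, hab.2, rfl⟩) h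

theorem accepts_of_tape (M : TwoWayNFA α σ) (w : List α)
    (h : ReflTransGen (tapeG (fun k => cellDg M (scan w k)) (w.length + 1 + 1))
      (0, (some M.start, true)) (w.length + 1 + 1, (none, true))) : M.Accepts w := by
  have key : ∀ v, ReflTransGen (tapeG (fun k => cellDg M (scan w k)) (w.length + 1 + 1))
      (0, (some M.start, true)) v → M.Accepts w ∨ ∃ q, v.2.1 = some q ∧
        ((v.2.2 = true ∧ v.1 = w.length + 1 + 1) ∨ (v.2.2 = false ∧ v.1 = 0) ∨
          ReflTransGen (M.Step w) (M.start, 0) (q, cond v.2.2 v.1 (v.1 - 1))) := by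
    intro v hv
    induction hv with
    | refl => exact Or.inr ⟨M.start, rfl, Or.inr (Or.inr .refl)⟩
    | @tail b c _ hbc ih =>
      rcases ih with ih | ⟨q, hq, ih⟩
      · exact Or.inl ih
      obtain ⟨j, hj, h1, h2, h3⟩ := hbc
      obtain ⟨b1, b2, b3⟩ := b
      obtain ⟨c1, c2⟩ := c
      simp only at h1 h2 h3 hq ih ⊢
      subst hq
      have hr : ReflTransGen (M.Step w) (M.start, 0) (q, j) := by
        subst h1
        cases b3
        · simpa using ih
        · simp only [cond_true, true_and, Bool.true_eq_false, false_and, false_or] at ih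
          rcases ih with ih | ih
          · omega
          · exact ih
      rcases h3 with ⟨h3, -⟩ | ⟨r, r', h3, h4, h5⟩
      · simp at h3
      obtain rfl : q = r := by simpa using h3
      have hr' := hr.trans (stay_reach M w j h4)
      rcases h5 with ⟨a, rfl⟩ | ⟨a, x, ⟨b, rfl⟩ | ⟨b, rfl⟩⟩
      · exact Or.inl ⟨_, hr', a⟩
      · right
        refine ⟨x, rfl, ?_⟩
        simp only [cond_true] at h2 ⊢
        by_cases e : j = w.length + 1
        · exact Or.inl ⟨trivial, by omega⟩
        · refine Or.inr (Or.inr (hr'.tail ⟨HeadMove.moveRight, b, ?_⟩))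
          simp only [movePos, h2]
          rw [if_neg (by omega)]
      · right
        refine ⟨x, rfl, ?_⟩
        simp only [cond_false] at h2 ⊢
        by_cases e : j = 0
        · exact Or.inr (Or.inl ⟨trivial, by omega⟩)
        · refine Or.inr (Or.inr (hr'.tail ⟨HeadMove.moveLeft, b, ?_⟩))
          simp only [movePos, h2]
          rw [if_neg e]
  rcases key _ h with h | ⟨q, hq, -⟩
  · exact h
  · simp at hq

theorem tape_of_accepts (M : TwoWayNFA α σ) (w : List α) (h : M.Accepts w) :
    ReflTransGen (tapeG (fun k => cellDg M (scan w k)) (w.length + 1 + 1))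
      (0, (some M.start, true)) (w.length + 1 + 1, (none, true)) := by
  set G := tapeG (fun k => cellDg M (scan w k)) (w.length + 1 + 1) with hG
  have top : ∀ t j, j + t = w.length + 1 + 1 →
      ReflTransGen G (j, (none, true)) (w.length + 1 + 1, (none, true)) := by
    intro t
    induction t with
    | zero => intro j hj; rw [← hj]; exact .refl
    | succ t ih =>
      intro j hj
      refine ReflTransGen.head (b := (j + 1, (none, true))) ⟨j, by omega, rfl, rfl, ?_⟩
        (ih _ (by omega))
      exact Or.inl ⟨rfl, rfl⟩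
  have edge : ∀ j q0 d q p, j ≤ w.length + 1 → ReflTransGen (stayS M (scan w j)) q0 q →
      exitS M (scan w j) q p → G (cond d j (j + 1), (some q0, d)) (cond p.2 (j + 1) j, p) := by
    intro j q0 d q p hj h1 h2
    exact ⟨j, by omega, rfl, rfl, Or.inr ⟨q0, q, rfl, h1, h2⟩⟩
  have key : ∀ c, ReflTransGen (M.Step w) (M.start, 0) c → c.2 ≤ w.length + 1 ∧
      (ReflTransGen G (0, (some M.start, true)) (w.length + 1 + 1, (none, true)) ∨
        ∃ q0 d, ReflTransGen G (0, (some M.start, true)) (cond d c.2 (c.2 + 1), (some q0, d)) ∧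
          ReflTransGen (stayS M (scan w c.2)) q0 c.1) := by
    intro c hc
    induction hc with
    | refl => exact ⟨by omega, Or.inr ⟨M.start, true, .refl, .refl⟩⟩
    | @tail b c _ hbc ih =>
      obtain ⟨q, j⟩ := b
      obtain ⟨q', j'⟩ := c
      obtain ⟨m, hm1, hm2⟩ := hbc
      simp only at hm1 hm2 ih ⊢
      obtain ⟨hj, ih⟩ := ih
      have hj' : j' ≤ w.length + 1 := by
        cases m <;> simp only [movePos] at hm2
        · split_ifs at hm2; simp only [Option.some.injEq] at hm2; omega
        · simp only [Option.some.injEq] at hm2; omega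
        · split_ifs at hm2; simp only [Option.some.injEq] at hm2; omega
      refine ⟨hj', ?_⟩
      rcases ih with ih | ⟨q0, d, h1, h2⟩
      · exact Or.inl ih
      by_cases ha : q ∈ M.accept
      · left
        exact (h1.tail (edge j q0 d q _ hj h2 (Or.inl ⟨ha, rfl⟩))).trans
          (top (w.length + 1 - j) (j + 1) (by omega))
      right
      cases m <;> simp only [movePos] at hm2
      · split_ifs at hm2 with e
        simp only [Option.some.injEq] at hm2
        subst hm2
        refine ⟨q', false, ?_, .refl⟩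
        have := h1.tail (edge j q0 d q _ hj h2 (Or.inr ⟨ha, q', Or.inr ⟨hm1, rfl⟩⟩))
        simp only [cond_false] at this ⊢
        rwa [show j - 1 + 1 = j by omega]
      · simp only [Option.some.injEq] at hm2
        subst hm2
        exact ⟨q0, d, h1, h2.tail ⟨ha, hm1⟩⟩
      · split_ifs at hm2 with e
        simp only [Option.some.injEq] at hm2
        subst hm2
        exact ⟨q', true, h1.tail (edge j q0 d q _ hj h2 (Or.inr ⟨ha, q', Or.inl ⟨hm1, rfl⟩⟩)),
          .refl⟩
  obtain ⟨⟨q, j⟩, hc, ha⟩ := h
  obtain ⟨hj, h | ⟨q0, d, h1, h2⟩⟩ := key _ hc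
  · exact h
  · exact (h1.tail (edge j q0 d q _ hj h2 (Or.inl ⟨ha, rfl⟩))).trans
      (top (w.length + 1 - j) (j + 1) (by simp only at hj; omega))

/-- The diagram of a word. -/
def wordDg (M : TwoWayNFA α σ) (w : List α) : Dg (Prod.snd : Option σ × Bool → Bool) :=
  (w.map (fun a => cellDg M (Cell.letter a))).prod

theorem wordDg_append (M : TwoWayNFA α σ) (w w' : List α) :
    wordDg M (w ++ w') = wordDg M w * wordDg M w' := by
  simp [wordDg]

theorem range_scan (w : List α) : (List.range (w.length + 1 + 1)).map (scan w) =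
    Cell.leftEnd :: (w.map Cell.letter ++ [Cell.rightEnd]) := by
  apply List.ext_getElem
  · simp
  · intro i h1 h2
    simp only [List.getElem_map, List.getElem_range]
    cases i with
    | zero => simp [scan_zero]
    | succ i =>
      simp only [List.getElem_cons_succ]
      by_cases hi : i < w.length
      · rw [scan_succ_of_lt w i hi, List.getElem_append_left (by simpa using hi)]
        simp
      · rw [scan_succ_of_ge w i (by omega), List.getElem_append_right (by simpa using hi)]
        simp

theorem accepts_iff (M : TwoWayNFA α σ) (w : List α) : M.Accepts w ↔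
    (cellDg M Cell.leftEnd * (wordDg M w * cellDg M Cell.rightEnd)).r
      (some M.start, true) (none, true) := by
  have h1 : ((List.range (w.length + 1 + 1)).map (fun k => cellDg M (scan w k))).prod =
      cellDg M Cell.leftEnd * (wordDg M w * cellDg M Cell.rightEnd) := by
    have : (fun k => cellDg M (scan w k)) = cellDg M ∘ scan w := rfl
    rw [this, ← List.map_map, range_scan]
    simp [wordDg, Function.comp_def]
  rw [← h1, tape_iff]
  exact ⟨tape_of_accepts M w, accepts_of_tape M w⟩

theorem accepts_mono (M : TwoWayNFA α σ) {w w' : List α} (h : Dle (wordDg M w) (wordDg M w'))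
    (a b : α) (hw : M.Accepts (a :: (w ++ [b]))) : M.Accepts (a :: (w' ++ [b])) := by
  rw [accepts_iff] at hw ⊢
  refine mul_mono Dle.rfl (mul_mono ?_ Dle.rfl) _ _ hw
  change Dle (wordDg M ([a] ++ (w ++ [b]))) (wordDg M ([a] ++ (w' ++ [b])))
  simp only [wordDg_append]
  exact mul_mono Dle.rfl (mul_mono h Dle.rfl)

theorem wordDg_det {M : TwoWayNFA α σ} (hM : M.IsDeterministic) (w : List α) :
    Det (wordDg M w) := by
  induction w with
  | nil => exact Det_one
  | cons a w ih => exact Det_mul (cellDg_det hM _) ih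

end auto

section live

variable {h : ℕ} {σ : Type u}

theorem wordRel_append (w w' : List (Fin h → Fin h → Bool)) (a c : Fin h) :
    wordRel (w ++ w') a c ↔ ∃ b, wordRel w a b ∧ wordRel w' b c := by
  induction w generalizing a with
  | nil => simp [wordRel]
  | cons S w ih =>
    simp only [List.cons_append, wordRel, ih]
    constructor
    · rintro ⟨b, hb, d, hd, hR⟩
      exact ⟨d, ⟨b, hb, hd⟩, hR⟩
    · rintro ⟨d, ⟨b, hb, hd⟩, hR⟩
      exact ⟨b, hb, d, hd, hR⟩

/-- The letter testing one point. -/
def pt (a : Fin h) : Fin h → Fin h → Bool := fun x y => decide (x = a ∧ y = a)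

theorem live_iff (w : List (Fin h → Fin h → Bool)) (a b : Fin h) :
    pt a :: (w ++ [pt b]) ∈ liveness h ↔ wordRel w a b := by
  change (∃ x y, wordRel (pt a :: (w ++ [pt b])) x y) ↔ _
  simp only [wordRel, wordRel_append_singleton, pt, decide_eq_true_eq]
  constructor
  · rintro ⟨x, y, c, ⟨-, rfl⟩, d, h, rfl, -⟩
    exact h
  · intro h
    exact ⟨a, b, a, ⟨rfl, rfl⟩, b, h, rfl, rfl⟩

/-- The monoid of pairs (behaviour, relation) of words. -/
def pairs (M : TwoWayNFA (Fin h → Fin h → Bool) σ) :
    Submonoid (Dg (Prod.snd : Option σ × Bool → Bool) × Rl (Fin h)) where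
  carrier := {s | ∃ w, s.1 = wordDg M w ∧ s.2 = ⟨wordRel w⟩}
  one_mem' := ⟨[], rfl, rfl⟩
  mul_mem' := by
    rintro s t ⟨w, h1, h2⟩ ⟨w', h3, h4⟩
    refine ⟨w ++ w', by rw [wordDg_append, ← h1, ← h3]; rfl, ?_⟩
    ext a c
    rw [Prod.snd_mul, h2, h4, Rl.mul_r]
    exact (wordRel_append w w' a c).symm

theorem bound_of [Fintype σ] (hh : 2 ≤ h) (M : TwoWayNFA (Fin h → Fin h → Bool) σ) {k α : ℕ}
    (hk : k = 2 ∨ (k = 1 ∧ M.IsDeterministic)) (hα : 1 ≤ α) (hkα : 8 * k ^ 3 ≤ α)
    (H0 : ∀ w w', wordDg M w * wordDg M w' = wordDg M w' → wordDg M w' * wordDg M w = wordDg M w' →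
      Dle (wordDg M w) (wordDg M w') → ∀ a b, wordRel w' a b → wordRel w a b) :
    2 ^ ((h - 2) / (2 * α - 1)) ≤ 2 * (Fintype.card σ + 1) := by
  classical
  have := core_bound (S := pairs M) hh ((MonoidHom.fst _ _).comp (pairs M).subtype)
    (ψ := (MonoidHom.snd _ _).comp (pairs M).subtype) (k := k) (α := α) (by
      intro x
      refine ⟨⟨(wordDg M [fun a b => decide (x.r a b)], x), [fun a b => decide (x.r a b)], rfl, ?_⟩,
        rfl⟩
      ext a b
      simp [wordRel]) (hk.imp id (fun hk => ⟨hk.1, by
        rintro ⟨s, w, h1, -⟩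
        change Det s.1
        rw [h1]
        exact wordDg_det hk.2 w⟩)) hα hkα (by
      rintro ⟨e, w, h1, h2⟩ ⟨x, w', h3, h4⟩ - e1 e2 hle a b hab
      have e1' : e.1 * x.1 = x.1 := congrArg (fun s => s.1.1) e1
      have e2' : x.1 * e.1 = x.1 := congrArg (fun s => s.1.1) e2
      change Dle e.1 x.1 at hle
      change x.2.r a b at hab
      change e.2.r a b
      rw [h1, h3] at e1' e2' hle
      rw [h4] at hab
      rw [h2]
      exact H0 w w' e1' e2' hle a b hab)
  rw [Nat.card_eq_fintype_card, Fintype.card_prod, Fintype.card_option, Fintype.card_bool] at this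
  omega

theorem bound_nfa [Fintype σ] (hh : 2 ≤ h) (M : TwoWayNFA (Fin h → Fin h → Bool) σ)
    (hM : M.language = (liveness h)ᶜ) : 2 ^ ((h - 2) / 127) ≤ 2 * (Fintype.card σ + 1) := by
  have hacc : ∀ w, M.Accepts w ↔ w ∉ liveness h := fun w => by
    change w ∈ M.language ↔ _
    rw [hM]; rfl
  refine bound_of hh M (k := 2) (α := 64) (Or.inl rfl) (by norm_num) (by norm_num) ?_
  intro w w' _ _ hle a b hab
  by_contra hcon
  have := accepts_mono M hle (pt a) (pt b) ((hacc _).2 (by rwa [live_iff]))
  exact (hacc _).1 this ((live_iff _ _ _).2 hab)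

theorem bound_dfa [Fintype σ] (hh : 2 ≤ h) (M : TwoWayNFA (Fin h → Fin h → Bool) σ)
    (hd : M.IsDeterministic) (hM : M.language = liveness h) :
    2 ^ ((h - 2) / 31) ≤ 2 * (Fintype.card σ + 1) := by
  have hacc : ∀ w, M.Accepts w ↔ w ∈ liveness h := fun w => by
    change w ∈ M.language ↔ _
    rw [hM]
  refine bound_of hh M (k := 1) (α := 16) (Or.inr ⟨rfl, hd⟩) (by norm_num) (by norm_num) ?_
  intro w w' e1 e2 hle a b hab
  have heq := eq_of_det (wordDg_det hd w') e1 e2 hle
  have := accepts_mono M (w := w') (w' := w) (by rw [heq]; exact Dle.rfl) (pt a) (pt b)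
    ((hacc _).2 ((live_iff _ _ _).2 hab))
  exact (live_iff _ _ _).1 ((hacc _).1 this)

end live

end Crest.Agent.R294
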