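import Crest.Agent.R294.Transfer

set_option autoImplicit false

/-!
The abstract doubling argument: a finite monoid mapping to two-way diagrams and onto binary
relations needs exponentially many ports.
-/

namespace Crest.Agent.R294

universe u

/-- Binary relations under composition. -/
@[ext] structure Rl (ι : Type) where
  r : ι → ι → Prop

instance {ι : Type} [Finite ι] : Finite (Rl ι) :=
  Finite.of_injective (fun X : Rl ι => X.r) (fun _ _ h => Rl.ext h)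

instance {ι : Type} : Monoid (Rl ι) where
  mul X Y := ⟨fun a c => ∃ b, X.r a b ∧ Y.r b c⟩
  one := ⟨fun a b => a = b⟩
  mul_assoc X Y Z := by
    ext a d
    exact ⟨fun ⟨c, ⟨b, h1, h2⟩, h3⟩ => ⟨b, h1, c, h2, h3⟩,
      fun ⟨b, h1, c, h2, h3⟩ => ⟨c, ⟨b, h1, h2⟩, h3⟩⟩
  one_mul X := by
    ext a c
    exact ⟨fun ⟨b, h1, h2⟩ => by cases h1; exact h2, fun h => ⟨a, rfl, h⟩⟩
  mul_one X := by
    ext a c
    exact ⟨fun ⟨b, h1, h2⟩ => by cases h2; exact h1, fun h => ⟨c, h, rfl⟩⟩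

theorem Rl.mul_r {ι : Type} (X Y : Rl ι) (a c : ι) : (X * Y).r a c ↔ ∃ b, X.r a b ∧ Y.r b c :=
  Iff.rfl

theorem Rl.one_r {ι : Type} (a c : ι) : (1 : Rl ι).r a c ↔ a = c := Iff.rfl

/-- The identity on `U` together with the pairs in `T`. -/
def plus {ι : Type} (U : Finset ι) (T : Finset (ι × ι)) : Rl ι :=
  ⟨fun a b => (a = b ∧ a ∈ U) ∨ (a, b) ∈ T⟩

theorem plus_r {ι : Type} (U : Finset ι) (T : Finset (ι × ι)) (a b : ι) :
    (plus U T).r a b ↔ (a = b ∧ a ∈ U) ∨ (a, b) ∈ T := Iff.rfl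

theorem plus_idem {ι : Type} (U : Finset ι) : plus U ∅ * plus U ∅ = plus U ∅ := by
  ext a b
  simp only [Rl.mul_r, plus_r, Finset.notMem_empty, or_false]
  grind

theorem exists_idem_pow {S : Type*} [Monoid S] [Finite S] (x : S) :
    ∃ n, x ^ (n + 1) * x ^ (n + 1) = x ^ (n + 1) := by
  obtain ⟨a, b, hab, h⟩ := Finite.exists_ne_map_eq_of_infinite (fun n : ℕ => x ^ n)
  wlog hlt : a < b generalizing a b
  · exact this b a hab.symm h.symm (by omega)
  obtain ⟨p, rfl⟩ : ∃ p, b = a + (p + 1) := ⟨b - a - 1, by omega⟩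
  have key : ∀ t m, a ≤ m → x ^ (m + t * (p + 1)) = x ^ m := by
    intro t m hm
    induction t with
    | zero => simp
    | succ t ih =>
      obtain ⟨c, rfl⟩ := Nat.exists_eq_add_of_le hm
      have : a + c + (t + 1) * (p + 1) = (a + (p + 1)) + (c + t * (p + 1)) := by ring
      rw [this, pow_add, ← h, ← pow_add, ← add_assoc, ih]
  refine ⟨(a + 1) * (p + 1) - 1, ?_⟩
  have h1 : (a + 1) * (p + 1) - 1 + 1 = (a + 1) * (p + 1) := by
    have : 0 < (a + 1) * (p + 1) := by positivity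
    omega
  rw [h1, ← pow_add]
  exact key _ _ (by nlinarith)

theorem idem_pow {S : Type*} [Monoid S] {x : S} (h : x * x = x) (n : ℕ) : x ^ (n + 1) = x := by
  induction n with
  | zero => simp
  | succ n ih => rw [pow_succ, ih, h]

theorem loc_pow_l {S : Type*} [Monoid S] {e x : S} (h : e * x = x) (n : ℕ) :
    e * x ^ (n + 1) = x ^ (n + 1) := by
  rw [pow_succ', ← mul_assoc, h]

theorem loc_pow_r {S : Type*} [Monoid S] {e x : S} (h : x * e = x) (n : ℕ) :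
    x ^ (n + 1) * e = x ^ (n + 1) := by
  rw [pow_succ, mul_assoc, h]

section core

variable {P : Type u} {dir : P → Bool} {ι : Type} {S : Type*} [Monoid S]

/-- A minimal idempotent lift of the identity relation on `U`. -/
def IsMin (ψ : S →* Rl ι) (e : S) (U : Finset ι) : Prop :=
  e * e = e ∧ ψ e = plus U ∅ ∧
    ∀ f, f * f = f → e * f = f → f * e = f → ψ f = plus U ∅ → f = e

theorem exists_min [Finite S] {ψ : S →* Rl ι} (hψ : Function.Surjective ψ) {g : S}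
    (hg : g * g = g) (U : Finset ι) (h : ψ g * plus U ∅ * ψ g = plus U ∅) :
    ∃ e, IsMin ψ e U ∧ g * e = e ∧ e * g = e := by
  let lt : S → S → Prop := fun f e => e * f = f ∧ f * e = f ∧ f ≠ e
  have : IsTrans S lt := ⟨fun f e d h1 h2 => by
    refine ⟨?_, ?_, ?_⟩
    · rw [← h1.1, ← mul_assoc, h2.1]
    · rw [← h1.2.1, mul_assoc, h2.2.1]
    · rintro rfl
      exact h2.2.2 (h2.2.1.symm.trans h1.1)⟩
  have : Std.Irrefl lt := ⟨fun a ha => ha.2.2 rfl⟩
  have wf : WellFounded lt := Finite.wellFounded_of_trans_of_irrefl lt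
  obtain ⟨y, hy⟩ := hψ (plus U ∅)
  obtain ⟨n, hn⟩ := exists_idem_pow (g * y * g)
  have hne : ({e | e * e = e ∧ g * e = e ∧ e * g = e ∧ ψ e = plus U ∅} : Set S).Nonempty := by
    refine ⟨(g * y * g) ^ (n + 1), hn, loc_pow_l ?_ n, loc_pow_r ?_ n, ?_⟩
    · rw [← mul_assoc, ← mul_assoc, hg]
    · rw [mul_assoc, hg]
    · rw [map_pow, map_mul, map_mul, hy, h, idem_pow (plus_idem U)]
  obtain ⟨e, he, hm⟩ := wf.has_min _ hne
  refine ⟨e, ⟨he.1, he.2.2.2, fun f h1 h2 h3 h4 => ?_⟩, he.2.1, he.2.2.1⟩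
  by_contra hcon
  refine hm f ⟨h1, ?_, ?_, h4⟩ ⟨h2, h3, hcon⟩
  · rw [← h2, ← mul_assoc, he.2.1]
  · rw [← h3, mul_assoc, he.2.2.1]

theorem IsMin.unit [Finite S] {ψ : S →* Rl ι} {e : S} {U : Finset ι} (he : IsMin ψ e U) {x : S}
    (h1 : e * x = x) (h2 : x * e = x) (h3 : ψ x = plus U ∅) :
    ∃ y, x * y = e ∧ y * e = y ∧ ψ y = plus U ∅ := by
  obtain ⟨n, hn⟩ := exists_idem_pow x
  have hx : x ^ (n + 1) = e := he.2.2 _ hn (loc_pow_l h1 n) (loc_pow_r h2 n)
    (by rw [map_pow, h3, idem_pow (plus_idem U)])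
  refine ⟨x ^ (2 * n + 1), ?_, loc_pow_r h2 _, by rw [map_pow, h3, idem_pow (plus_idem U)]⟩
  rw [← pow_succ', show 2 * n + 1 + 1 = (n + 1) + (n + 1) by ring, pow_add, hn, hx]

theorem TR1 [Finite S] [Finite P] (φ : S →* Dg dir) {ψ : S →* Rl ι}
    (hψ : Function.Surjective ψ) {k : ℕ} (hk : k = 2 ∨ (k = 1 ∧ ∀ s, Det (φ s))) {f e x : S}
    {U : Finset ι} (hf : IsMin ψ f U) (he : e * e = e) (a b : Rl ι)
    (hab : plus U ∅ * a * ψ e * b * plus U ∅ = plus U ∅) (h1 : e * x = x) (h2 : x * e = x) :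
    ∃ z, f * z = z ∧ z * f = z ∧ ψ z = plus U ∅ * a * ψ x * b * plus U ∅ ∧
      (supp (φ f) (φ z)).ncard ≤ k * (supp (φ e) (φ x)).ncard := by
  obtain ⟨a', rfl⟩ := hψ a
  obtain ⟨b', rfl⟩ := hψ b
  obtain ⟨y, y1, y2, y3⟩ := hf.unit (x := f * a' * e * b' * f)
    (by simp only [← mul_assoc, hf.1]) (by simp only [mul_assoc, hf.1])
    (by simp only [map_mul, hf.2.1, hab])
  obtain ⟨W', hW1, hW2⟩ := transfer (F := φ f) (A := φ (f * a')) (E := φ e)
    (B := φ (b' * f * y)) (by rw [← map_mul, he]) (by rw [← map_mul, ← mul_assoc, hf.1])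
    (by rw [← map_mul, mul_assoc, y2])
    (by rw [← map_mul, ← map_mul]; congr 1; simpa only [mul_assoc] using y1) k
    (hk.imp id (fun h => ⟨h.1, h.2 _, h.2 _, h.2 _⟩)) (supp (φ e) (φ x))
  refine ⟨f * a' * x * (b' * f * y), by simp only [← mul_assoc, hf.1],
    by simp only [mul_assoc, y2], ?_, ?_⟩
  · simp only [map_mul, hf.2.1, y3, mul_assoc, plus_idem]
  · refine le_trans (Set.ncard_le_ncard ?_) hW1
    have := hW2 (φ x) (by rw [← map_mul, h1]) (by rw [← map_mul, h2]) subset_rfl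
    rwa [← map_mul, ← map_mul] at this

theorem exists_perm [DecidableEq ι] {U : Finset ι} {u v u' v' : ι} (hu : u ∈ U) (hv : v ∈ U)
    (hu' : u' ∈ U) (hv' : v' ∈ U) (huv : u ≠ v) (huv' : u' ≠ v') :
    ∃ π : Equiv.Perm ι, π u' = u ∧ π v' = v ∧ ∀ p, p ∈ U → π p ∈ U := by
  have sw : ∀ a b, a ∈ U → b ∈ U → ∀ p, p ∈ U → Equiv.swap a b p ∈ U := by
    intro a b ha hb p hp
    rw [Equiv.swap_apply_def]
    split_ifs <;> assumption
  refine ⟨(Equiv.swap u' u).trans (Equiv.swap (Equiv.swap u' u v') v), ?_, by simp, ?_⟩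
  · simp only [Equiv.trans_apply, Equiv.swap_apply_left]
    apply Equiv.swap_apply_of_ne_of_ne _ huv
    intro h
    have h2 : Equiv.swap u' u u' = Equiv.swap u' u v' := by rw [← h]; simp
    exact huv' ((Equiv.swap u' u).injective h2)
  · intro p hp
    exact sw _ _ (sw _ _ hu' hu _ hv') hv _ (sw _ _ hu' hu _ hp)

theorem conj [DecidableEq ι] [Finite S] [Finite P] (φ : S →* Dg dir) {ψ : S →* Rl ι}
    (hψ : Function.Surjective ψ) {k : ℕ} (hk : k = 2 ∨ (k = 1 ∧ ∀ s, Det (φ s))) {e x : S}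
    {U : Finset ι} (he : IsMin ψ e U) (h1 : e * x = x) (h2 : x * e = x) {u v u' v' : ι}
    (hu : u ∈ U) (hv : v ∈ U) (hu' : u' ∈ U) (hv' : v' ∈ U) (huv : u ≠ v) (huv' : u' ≠ v')
    (hx : ψ x = plus U {(u, v)}) :
    ∃ z, e * z = z ∧ z * e = z ∧ ψ z = plus U {(u', v')} ∧
      (supp (φ e) (φ z)).ncard ≤ k * (supp (φ e) (φ x)).ncard := by
  obtain ⟨π, p1, p2, p3⟩ := exists_perm hu hv hu' hv' huv huv'
  have hinj := π.injective
  obtain ⟨z, z1, z2, z3, z4⟩ := TR1 φ hψ hk he he.1 ⟨fun p q => q = π p⟩ ⟨fun p q => p = π q⟩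
    (by
      rw [he.2.1]
      ext a b
      simp only [Rl.mul_r, plus_r, Finset.notMem_empty, or_false]
      constructor
      · rintro ⟨c, ⟨d, ⟨e', ⟨f, ⟨rfl, h1⟩, rfl⟩, rfl, h2⟩, h3⟩, rfl, h4⟩
        exact ⟨hinj h3, h1⟩
      · rintro ⟨rfl, h⟩
        exact ⟨a, ⟨π a, ⟨π a, ⟨a, ⟨rfl, h⟩, rfl⟩, rfl, p3 a h⟩, rfl⟩, rfl, h⟩) h1 h2
  refine ⟨z, z1, z2, ?_, z4⟩
  rw [z3, hx]
  ext a b
  simp only [Rl.mul_r, plus_r, Finset.notMem_empty, or_false, Finset.mem_singleton, Prod.mk.injEq]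
  constructor
  · rintro ⟨c, ⟨d, ⟨e', ⟨f, ⟨rfl, h1⟩, rfl⟩, h2⟩, rfl⟩, rfl, h4⟩
    rcases h2 with ⟨h2, -⟩ | ⟨h2, h3⟩
    · exact Or.inl ⟨hinj h2, h1⟩
    · exact Or.inr ⟨hinj (h2.trans p1.symm), hinj (h3.trans p2.symm)⟩
  · rintro (⟨rfl, h⟩ | ⟨rfl, rfl⟩)
    · exact ⟨a, ⟨π a, ⟨π a, ⟨a, ⟨rfl, h⟩, rfl⟩, Or.inl ⟨rfl, p3 a h⟩⟩, rfl⟩, rfl, h⟩
    · exact ⟨b, ⟨π b, ⟨π a, ⟨a, ⟨rfl, hu'⟩, rfl⟩, Or.inr ⟨p1, p2⟩⟩, rfl⟩, rfl, hv'⟩

/-- Every lift of a transvection on at least `m` points has support of size at least `d`. -/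
def Claim (φ : S →* Dg dir) (ψ : S →* Rl ι) (d m : ℕ) : Prop :=
  ∀ (U : Finset ι) (e x : S) (u v : ι), m ≤ U.card → IsMin ψ e U → u ∈ U → v ∈ U → u ≠ v →
    e * x = x → x * e = x → ψ x = plus U {(u, v)} → d ≤ (supp (φ e) (φ x)).ncard

theorem claim_base [Finite P] (φ : S →* Dg dir) (ψ : S →* Rl ι)
    (H0 : ∀ e x : S, e * e = e → e * x = x → x * e = x → Dle (φ e) (φ x) →
      ∀ a b, (ψ x).r a b → (ψ e).r a b) (m : ℕ) : Claim φ ψ 1 m := by
  intro U e x u v _ he _ _ huv h1 h2 hx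
  by_contra hcon
  have h0 : supp (φ e) (φ x) = ∅ := by
    rw [← Set.ncard_eq_zero]; omega
  have := H0 e x he.1 h1 h2 (Dle_of_supp (by rw [← map_mul, he.1]) (by rw [← map_mul, h1])
    (by rw [← map_mul, h2]) h0) u v (by rw [hx, plus_r]; simp)
  rw [he.2.1, plus_r] at this
  simp [huv] at this

theorem chain [DecidableEq ι] [Finite S] [Finite P] (φ : S →* Dg dir) {ψ : S →* Rl ι}
    (hψ : Function.Surjective ψ) {k : ℕ} (hk : k = 2 ∨ (k = 1 ∧ ∀ s, Det (φ s))) {d m : ℕ}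
    (hc : Claim φ ψ d m) {U I J : Finset ι} (hI : I ⊆ U) (hJ : J ⊆ U) (hIJ : Disjoint I J)
    (hm : m + I.card + J.card ≤ U.card + 2) {Q : S} (hQ : Q * Q = Q) (hQU : ψ Q = plus U ∅)
    (W : Set P) (X : ι → ι → S)
    (hX : ∀ i ∈ I, ∀ j ∈ J, Q * X i j = X i j ∧ X i j * Q = X i j ∧ ψ (X i j) = plus U {(i, j)} ∧
      supp (φ Q) (φ (X i j)) ⊆ W) (T : Finset (ι × ι)) (hT : T ⊆ I ×ˢ J) :
    ∃ g : S, g * g = g ∧ Q * g = g ∧ g * Q = g ∧ ψ g = plus U T ∧ supp (φ Q) (φ g) ⊆ W ∧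
      T.card * d + 2 * k * (Bd (φ g) (Pt (φ Q) \ W)).ncard ≤ 2 * k * W.ncard := by
  have hdis : ∀ a, a ∈ I → a ∈ J → False := fun a h1 h2 => Finset.disjoint_left.1 hIJ h1 h2
  have hmul : ∀ y z : S, Q * y = y → y * Q = y → Q * z = z → z * Q = z →
      supp (φ Q) (φ y) ⊆ W → supp (φ Q) (φ z) ⊆ W → supp (φ Q) (φ (y * z)) ⊆ W := by
    intro y z y1 y2 z1 z2 y3 z3
    rw [map_mul]
    exact (supp_mul (good_loc (by rw [← map_mul, y1]) (by rw [← map_mul, y2]))
      (good_loc (by rw [← map_mul, z1]) (by rw [← map_mul, z2]))).trans (Set.union_subset y3 z3)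
  induction T using Finset.induction_on with
  | empty =>
    refine ⟨Q, hQ, hQ, hQ, hQU, by rw [supp_self]; exact Set.empty_subset _, ?_⟩
    have := Set.ncard_le_ncard (Bd_self (E := φ Q) W)
    simp only [Finset.card_empty, zero_mul, zero_add]
    exact Nat.mul_le_mul_left _ this
  | insert t T ht ih =>
    obtain ⟨i, j⟩ := t
    obtain ⟨g, g1, g2, g3, g4, g5, g6⟩ := ih (fun a ha => hT (Finset.mem_insert_of_mem ha))
    have hij := Finset.mem_product.1 (hT (Finset.mem_insert_self _ _))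
    have hTI : ∀ a b, (a, b) ∈ T → a ∈ I ∧ b ∈ J := fun a b h =>
      Finset.mem_product.1 (hT (Finset.mem_insert_of_mem h))
    obtain ⟨hi, hj⟩ : i ∈ I ∧ j ∈ J := hij
    obtain ⟨x1, x2, x3, x4⟩ := hX i hi j hj
    have hy1 : Q * (g * X i j * g) = g * X i j * g := by simp only [← mul_assoc, g2]
    have hy2 : (g * X i j * g) * Q = g * X i j * g := by simp only [mul_assoc, g3]
    have hy3 : supp (φ Q) (φ (g * X i j * g)) ⊆ W :=
      hmul _ _ (by simp only [← mul_assoc, g2]) (by simp only [mul_assoc, x2]) g2 g3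
        (hmul _ _ g2 g3 x1 x2 g5 x4) g5
    have hy4 : ψ (g * X i j * g) = plus U (insert (i, j) T) := by
      rw [map_mul, map_mul, g4, x3]
      ext a b
      simp only [Rl.mul_r, plus_r, Finset.mem_insert, Finset.mem_singleton, Prod.mk.injEq]
      have := hI hi
      have := hJ hj
      constructor
      · rintro ⟨c, ⟨c', h1, h2⟩, h3⟩
        grind
      · rintro (⟨rfl, h⟩ | ⟨rfl, rfl⟩ | h)
        · exact ⟨a, ⟨a, Or.inl ⟨rfl, h⟩, Or.inl ⟨rfl, h⟩⟩, Or.inl ⟨rfl, h⟩⟩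
        · exact ⟨b, ⟨a, Or.inl ⟨rfl, hI hi⟩, Or.inr ⟨rfl, rfl⟩⟩, Or.inl ⟨rfl, hJ hj⟩⟩
        · have hb := hJ (hTI _ _ h).2
          exact ⟨b, ⟨b, Or.inr h, Or.inl ⟨rfl, hb⟩⟩, Or.inl ⟨rfl, hb⟩⟩
    have hy5 : plus U (insert (i, j) T) * plus U (insert (i, j) T) = plus U (insert (i, j) T) := by
      ext a b
      simp only [Rl.mul_r, plus_r, Finset.mem_insert, Prod.mk.injEq]
      constructor
      · rintro ⟨c, h1, h2⟩
        grind
      · rintro (⟨rfl, h⟩ | ⟨rfl, rfl⟩ | h)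
        · exact ⟨a, Or.inl ⟨rfl, h⟩, Or.inl ⟨rfl, h⟩⟩
        · exact ⟨b, Or.inr (Or.inl ⟨rfl, rfl⟩), Or.inl ⟨rfl, hJ hj⟩⟩
        · exact ⟨b, Or.inr (Or.inr h), Or.inl ⟨rfl, hJ (hTI _ _ h).2⟩⟩
    obtain ⟨n, hn⟩ := exists_idem_pow (g * X i j * g)
    set g' := (g * X i j * g) ^ (n + 1) with hg'
    have k1 : Q * g' = g' := loc_pow_l hy1 n
    have k2 : g' * Q = g' := loc_pow_r hy2 n
    have k3 : g * g' = g' := loc_pow_l (by simp only [← mul_assoc, g1]) n
    have k4 : g' * g = g' := loc_pow_r (by simp only [mul_assoc, g1]) n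
    have k5 : ψ g' = plus U (insert (i, j) T) := by rw [hg', map_pow, hy4, idem_pow hy5]
    have k6 : supp (φ Q) (φ g') ⊆ W := by
      have : ∀ n, supp (φ Q) (φ ((g * X i j * g) ^ (n + 1))) ⊆ W := by
        intro n
        induction n with
        | zero => simpa using hy3
        | succ n ih =>
          rw [pow_succ]
          exact hmul _ _ (loc_pow_l hy1 n) (loc_pow_r hy2 n) hy1 hy2 ih hy3
      exact this n
    refine ⟨g', hn, k1, k2, k5, k6, ?_⟩
    have hdrop := drop (E := φ g) (F := φ g') (by rw [← map_mul, g1]) (by rw [← map_mul, hn])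
      (by rw [← map_mul, k3]) (by rw [← map_mul, k4]) (Pt (φ Q) \ W) (by
        intro o ho
        refine cx_lower (E := φ Q) (by rw [← map_mul, g2]) (by rw [← map_mul, g3]) ?_
        by_contra hcon
        exact ho.2 (k6 ⟨ho.1, hcon⟩))
    -- transfer to the smaller set of points
    let U' : Finset ι := insert i (insert j ((U \ I) \ J))
    have hne : i ≠ j := fun h => hdis i hi (h ▸ hj)
    have hcard : m ≤ U'.card := by
      have c1 : i ∉ insert j ((U \ I) \ J) := by simp [hne, hi]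
      have c2 : j ∉ (U \ I) \ J := by simp [hj]
      have c3 : J ⊆ U \ I := fun a ha => Finset.mem_sdiff.2 ⟨hJ ha, fun h => hdis a h ha⟩
      have c4 := Finset.card_le_card c3
      simp only [U', Finset.card_insert_of_notMem c1, Finset.card_insert_of_notMem c2,
        Finset.card_sdiff_of_subset c3]
      rw [Finset.card_sdiff_of_subset hI] at c4 ⊢
      have := Finset.card_le_card hI
      omega
    have hU' : ∀ a, a ∈ U' ↔ a = i ∨ a = j ∨ (a ∈ U ∧ a ∉ I ∧ a ∉ J) := by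
      intro a; simp [U', and_assoc]
    obtain ⟨f, hf, -, -⟩ := exists_min hψ (g := 1) (mul_one 1) U' (by simp)
    obtain ⟨z, z1, z2, z3, z4⟩ := TR1 φ hψ hk hf g1 1 1 (by
      rw [g4, mul_one, mul_one]
      ext a b
      simp only [Rl.mul_r, plus_r, Finset.notMem_empty, or_false]
      constructor
      · rintro ⟨c, ⟨c', ⟨rfl, h1⟩, h2⟩, rfl, h3⟩
        rw [hU'] at h1 h3
        refine ⟨?_, (hU' _).2 h1⟩
        rcases h2 with h2 | h2
        · exact h2.1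
        · have := hTI _ _ h2
          grind
      · rintro ⟨rfl, h⟩
        have : a ∈ U := by
          rcases (hU' a).1 h with rfl | rfl | h'
          · exact hI hi
          · exact hJ hj
          · exact h'.1
        exact ⟨a, ⟨a, ⟨rfl, h⟩, Or.inl ⟨rfl, this⟩⟩, rfl, h⟩) k3 k4
    have hz : ψ z = plus U' {(i, j)} := by
      rw [z3, k5, mul_one, mul_one]
      ext a b
      simp only [Rl.mul_r, plus_r, Finset.notMem_empty, or_false, Finset.mem_insert,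
        Finset.mem_singleton, Prod.mk.injEq]
      constructor
      · rintro ⟨c, ⟨c', ⟨rfl, h1⟩, h2⟩, rfl, h3⟩
        rcases h2 with h2 | h2 | h2
        · exact Or.inl ⟨h2.1, h1⟩
        · exact Or.inr h2
        · rw [hU'] at h1 h3
          have := hTI _ _ h2
          grind
      · rintro (⟨rfl, h⟩ | ⟨rfl, rfl⟩)
        · have : a ∈ U := by
            rcases (hU' a).1 h with rfl | rfl | h'
            · exact hI hi
            · exact hJ hj
            · exact h'.1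
          exact ⟨a, ⟨a, ⟨rfl, h⟩, Or.inl ⟨rfl, this⟩⟩, rfl, h⟩
        · exact ⟨b, ⟨a, ⟨rfl, by simp [U']⟩, Or.inr (Or.inl ⟨rfl, rfl⟩)⟩, rfl, by simp [U']⟩
    have hd := hc U' f z i j hcard hf (by simp [U']) (by simp [U']) hne z1 z2 hz
    rw [Finset.card_insert_of_notMem ht]
    have h7 := Nat.mul_le_mul_left k hdrop
    nlinarith

theorem claim_step [DecidableEq ι] [Finite S] [Finite P] (φ : S →* Dg dir) {ψ : S →* Rl ι}
    (hψ : Function.Surjective ψ) {k : ℕ} (hk : k = 2 ∨ (k = 1 ∧ ∀ s, Det (φ s))) {d d' m α : ℕ}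
    (hm : 2 ≤ m) (hα : 1 ≤ α) (hc : Claim φ ψ d m)
    (hd : ∀ D, α * α * d ≤ 2 * k * (k * (2 * α * (k * D))) → d' ≤ D) :
    Claim φ ψ d' (m + (2 * α - 1)) := by
  intro U e x u v hU he hu hv huv h1 h2 hx
  apply hd
  obtain ⟨I, hI, cI⟩ := Finset.exists_subset_card_eq (s := U.erase u) (n := α)
    (by rw [Finset.card_erase_of_mem hu]; omega)
  obtain ⟨J, hJ, cJ⟩ := Finset.exists_subset_card_eq (s := U.erase u \ I) (n := α)
    (by rw [Finset.card_sdiff_of_subset hI, Finset.card_erase_of_mem hu]; omega)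
  have hJ' : J ⊆ U.erase u := fun a ha => (Finset.mem_sdiff.1 (hJ ha)).1
  have hIJ : Disjoint I J := Finset.disjoint_left.2 fun a h1 h2 => (Finset.mem_sdiff.1 (hJ h2)).2 h1
  have hF : ∀ i ∈ U.erase u, ∃ z, e * z = z ∧ z * e = z ∧ ψ z = plus U {(i, u)} ∧
      (supp (φ e) (φ z)).ncard ≤ k * (supp (φ e) (φ x)).ncard := fun i hi =>
    conj φ hψ hk he h1 h2 hu hv (Finset.mem_of_mem_erase hi) hu huv (Finset.ne_of_mem_erase hi) hx
  have hG : ∀ i ∈ U.erase u, ∃ z, e * z = z ∧ z * e = z ∧ ψ z = plus U {(u, i)} ∧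
      (supp (φ e) (φ z)).ncard ≤ k * (supp (φ e) (φ x)).ncard := fun i hi =>
    conj φ hψ hk he h1 h2 hu hv hu (Finset.mem_of_mem_erase hi) huv
      (Finset.ne_of_mem_erase hi).symm hx
  choose! F F1 F2 F3 F4 using hF
  choose! G G1 G2 G3 G4 using hG
  let W : Set P := (⋃ i ∈ I, supp (φ e) (φ (F i))) ∪ (⋃ j ∈ J, supp (φ e) (φ (G j)))
  have hW : W.ncard ≤ 2 * α * (k * (supp (φ e) (φ x)).ncard) := by
    have a1 := Finset.set_ncard_biUnion_le I (fun i => supp (φ e) (φ (F i)))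
    have a2 := Finset.set_ncard_biUnion_le J (fun i => supp (φ e) (φ (G i)))
    have a3 := Finset.sum_le_card_nsmul I _ _ (fun i hi => F4 i (hI hi))
    have a4 := Finset.sum_le_card_nsmul J _ _ (fun i hi => G4 i (hJ' hi))
    have a5 := Set.ncard_union_le (⋃ i ∈ I, supp (φ e) (φ (F i))) (⋃ j ∈ J, supp (φ e) (φ (G j)))
    rw [cI, smul_eq_mul] at a3
    rw [cJ, smul_eq_mul] at a4
    simp only [W]
    nlinarith
  obtain ⟨Q, hQ, Q1, Q2⟩ := exists_min hψ he.1 (U.erase u) (by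
    rw [he.2.1]
    ext a b
    simp only [Rl.mul_r, plus_r, Finset.notMem_empty, or_false, Finset.mem_erase]
    grind)
  obtain ⟨W', hW1, hW2⟩ := transfer (F := φ Q) (A := φ Q) (E := φ e) (B := φ Q)
    (by rw [← map_mul, he.1]) (by rw [← map_mul, hQ.1]) (by rw [← map_mul, hQ.1])
    (by rw [← map_mul, ← map_mul, Q2, hQ.1]) k
    (hk.imp id (fun h => ⟨h.1, h.2 _, h.2 _, h.2 _⟩)) W
  obtain ⟨g, -, -, -, -, -, hg⟩ := chain φ hψ hk hc hI hJ' hIJ
    (by rw [Finset.card_erase_of_mem hu]; omega) hQ.1 hQ.2.1 W'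
    (fun i j => Q * (F i * G j) * Q) (by
      intro i hi j hj
      have hi' := hI hi
      have hj' := hJ' hj
      refine ⟨by simp only [← mul_assoc, hQ.1], by simp only [mul_assoc, hQ.1], ?_, ?_⟩
      · rw [map_mul, map_mul, map_mul, hQ.2.1, F3 i hi', G3 j hj']
        ext a b
        simp only [Rl.mul_r, plus_r, Finset.notMem_empty, or_false, Finset.mem_erase,
          Finset.mem_singleton, Prod.mk.injEq]
        rw [Finset.mem_erase] at hi' hj'
        constructor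
        · rintro ⟨c, ⟨c', ⟨rfl, h1⟩, c'', h2, h3⟩, rfl, h4⟩
          grind
        · rintro (⟨rfl, h⟩ | ⟨rfl, rfl⟩)
          · exact ⟨a, ⟨a, ⟨rfl, h⟩, a, Or.inl ⟨rfl, h.2⟩, Or.inl ⟨rfl, h.2⟩⟩, rfl, h⟩
          · exact ⟨b, ⟨a, ⟨rfl, hi'⟩, u, Or.inr ⟨rfl, rfl⟩, Or.inr ⟨rfl, rfl⟩⟩, rfl, hj'⟩
      · rw [map_mul, map_mul]
        refine hW2 _ (by rw [← map_mul, ← mul_assoc, F1 i hi'])
          (by rw [← map_mul, mul_assoc, G2 j hj']) ?_
        rw [map_mul]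
        refine (supp_mul (good_loc (by rw [← map_mul, F1 i hi']) (by rw [← map_mul, F2 i hi']))
          (good_loc (by rw [← map_mul, G1 j hj']) (by rw [← map_mul, G2 j hj']))).trans ?_
        refine Set.union_subset_union ?_ ?_
        · exact Set.subset_biUnion_of_mem (u := fun i => supp (φ e) (φ (F i))) (Finset.mem_coe.2 hi)
        · exact Set.subset_biUnion_of_mem (u := fun i => supp (φ e) (φ (G i))) (Finset.mem_coe.2 hj))
    (I ×ˢ J) subset_rfl
  rw [Finset.card_product, cI, cJ] at hg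
  calc α * α * d ≤ 2 * k * W'.ncard := by omega
    _ ≤ 2 * k * (k * W.ncard) := Nat.mul_le_mul_left _ hW1
    _ ≤ _ := Nat.mul_le_mul_left _ (Nat.mul_le_mul_left _ hW)

theorem core_bound [Finite S] [Finite P] {h : ℕ} (hh : 2 ≤ h) (φ : S →* Dg dir)
    {ψ : S →* Rl (Fin h)} (hψ : Function.Surjective ψ) {k α : ℕ}
    (hk : k = 2 ∨ (k = 1 ∧ ∀ s, Det (φ s))) (hα : 1 ≤ α) (hkα : 8 * k ^ 3 ≤ α)
    (H0 : ∀ e x : S, e * e = e → e * x = x → x * e = x → Dle (φ e) (φ x) →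
      ∀ a b, (ψ x).r a b → (ψ e).r a b) :
    2 ^ ((h - 2) / (2 * α - 1)) ≤ Nat.card P := by
  have key : ∀ t, Claim φ ψ (2 ^ t) (2 + t * (2 * α - 1)) := by
    intro t
    induction t with
    | zero => simpa using claim_base φ ψ H0 2
    | succ t ih =>
      have := claim_step φ hψ hk (d' := 2 ^ (t + 1)) (by omega) hα ih (by
        intro D hD
        have e1 : 2 * k * (k * (2 * α * (k * D))) = α * (4 * k ^ 3 * D) := by ring
        rw [e1, mul_assoc] at hD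
        have e2 := Nat.le_of_mul_le_mul_left hD (by omega)
        have hkpos : 0 < k ^ 3 := by rcases hk with rfl | ⟨rfl, -⟩ <;> norm_num
        have e3 : 4 * k ^ 3 * (2 * 2 ^ t) ≤ 4 * k ^ 3 * D := by nlinarith [Nat.zero_le (2 ^ t)]
        have e4 := Nat.le_of_mul_le_mul_left e3 (by omega)
        rw [pow_succ]; omega)
      rwa [add_mul, one_mul, ← add_assoc]
  obtain ⟨e, he, -, -⟩ := exists_min hψ (g := 1) (mul_one 1) Finset.univ (by simp)
  let u : Fin h := ⟨0, by omega⟩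
  let v : Fin h := ⟨1, by omega⟩
  have huv : u ≠ v := by simp [u, v]
  obtain ⟨y, hy⟩ := hψ (plus Finset.univ {(u, v)})
  have hone : plus (Finset.univ : Finset (Fin h)) ∅ = 1 := by
    ext a b; simp [plus_r, Rl.one_r]
  have := key ((h - 2) / (2 * α - 1)) Finset.univ e (e * y * e) u v
    (by
      have := Nat.div_mul_le_self (h - 2) (2 * α - 1)
      simp only [Finset.card_univ, Fintype.card_fin]; omega) he (Finset.mem_univ _)
    (Finset.mem_univ _) huv (by simp only [← mul_assoc, he.1]) (by simp only [mul_assoc, he.1])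
    (by rw [map_mul, map_mul, he.2.1, hone, hy]; simp)
  refine this.trans ?_
  rw [← Set.ncard_univ]
  exact Set.ncard_le_ncard (Set.subset_univ _)

end core

end Crest.Agent.R294
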