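import Mathlib

set_option autoImplicit false

/-!
Two-way diagrams (behaviours of two-way automata on tape segments), their monoid structure,
and reachability in glued diagrams.
-/

namespace Crest.Agent.R294

open Relation

universe u

section abstract
variable {V : Type*} {V' : Type*}

theorem rtg_mono {G H : V → V → Prop} (h : ∀ a b, G a b → H a b) {u v : V}
    (huv : ReflTransGen G u v) : ReflTransGen H u v := by
  induction huv with
  | refl => exact .refl
  | tail _ hb ih => exact ih.tail (h _ _ hb)

theorem rtg_mono' {G H : V → V → Prop} (h : ∀ a b, G a b → ReflTransGen H a b) {u v : V}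
    (huv : ReflTransGen G u v) : ReflTransGen H u v := by
  induction huv with
  | refl => exact .refl
  | tail _ hb ih => exact ih.trans (h _ _ hb)

theorem rtg_lift {G : V → V → Prop} {H : V' → V' → Prop} (f : V → V')
    (h : ∀ a b, G a b → ReflTransGen H (f a) (f b)) {u v : V}
    (huv : ReflTransGen G u v) : ReflTransGen H (f u) (f v) := by
  induction huv with
  | refl => exact .refl
  | tail _ hb ih => exact ih.trans (h _ _ hb)

theorem rtg_first {G H K : V → V → Prop} (hG : ∀ a b, G a b → H a b ∨ K a b) {u v : V}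
    (h : ReflTransGen G u v) :
    ReflTransGen K u v ∨ ∃ w w', ReflTransGen K u w ∧ H w w' ∧ ReflTransGen G w' v := by
  induction h with
  | refl => exact Or.inl .refl
  | tail hab hbc ih =>
    rcases ih with ih | ⟨w, w', h1, h2, h3⟩
    · rcases hG _ _ hbc with h | h
      · exact Or.inr ⟨_, _, ih, h, .refl⟩
      · exact Or.inl (ih.tail h)
    · exact Or.inr ⟨w, w', h1, h2, h3.tail hbc⟩

theorem rtg_last {G H K : V → V → Prop} (hG : ∀ a b, G a b → H a b ∨ K a b) {u v : V}
    (h : ReflTransGen G u v) :
    ReflTransGen K u v ∨ ∃ w w', ReflTransGen G u w ∧ H w w' ∧ ReflTransGen K w' v := by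
  induction h with
  | refl => exact Or.inl .refl
  | tail hab hbc ih =>
    rcases hG _ _ hbc with h | h
    · exact Or.inr ⟨_, _, hab, h, .refl⟩
    · rcases ih with ih | ⟨w, w', h1, h2, h3⟩
      · exact Or.inl (ih.tail h)
      · exact Or.inr ⟨w, w', h1, h2, h3.tail h⟩

theorem rtg_contract {G H K G' : V → V → Prop} (I : V → Prop)
    (hG : ∀ a b, G a b → H a b ∨ K a b) (hH : ∀ a b, H a b → ¬ I a ∧ ¬ I b)
    (hH' : ∀ a b, H a b → G' a b)
    (hK : ∀ a b, ¬ I a → ¬ I b → TransGen K a b → G' a b) {u v : V} (hu : ¬ I u) (hv : ¬ I v)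
    (h : ReflTransGen G u v) : ReflTransGen G' u v := by
  have key : ∀ w, ReflTransGen G u w → ∃ z, ¬ I z ∧ ReflTransGen G' u z ∧ ReflTransGen K z w := by
    intro w hw
    induction hw with
    | refl => exact ⟨u, hu, .refl, .refl⟩
    | tail hab hbc ih =>
      obtain ⟨z, hz, h1, h2⟩ := ih
      rcases hG _ _ hbc with h | h
      · refine ⟨_, (hH _ _ h).2, ?_, .refl⟩
        refine ReflTransGen.tail ?_ (hH' _ _ h)
        rcases reflTransGen_iff_eq_or_transGen.1 h2 with rfl | h2
        · exact h1
        · exact h1.tail (hK _ _ hz (hH _ _ h).1 h2)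
      · exact ⟨z, hz, h1, h2.tail h⟩
  obtain ⟨z, hz, h1, h2⟩ := key v h
  rcases reflTransGen_iff_eq_or_transGen.1 h2 with rfl | h2
  · exact h1
  · exact h1.tail (hK _ _ hz hv h2)

/-- If every edge that lies on a path from `u` to `v` is an edge of `G'`, the path survives. -/
theorem rtg_survive {G G' : V → V → Prop} {u v : V} (h : ReflTransGen G u v)
    (hE : ∀ a b, ReflTransGen G u a → G a b → ReflTransGen G b v → G' a b) :
    ReflTransGen G' u v := by
  have key : ∀ w, ReflTransGen G u w → ReflTransGen G w v → ReflTransGen G' u w := by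
    intro w hw
    induction hw with
    | refl => intro _; exact .refl
    | tail hab hbc ih =>
      intro hv
      exact (ih (hv.head hbc)).tail (hE _ _ hab hbc hv)
  exact key v h .refl

theorem sink_unique {G : V → V → Prop} (hG : ∀ a b c, G a b → G a c → b = c) {z s s' : V}
    (h : ReflTransGen G z s) (h' : ReflTransGen G z s') (hs : ∀ b, ¬ G s b)
    (hs' : ∀ b, ¬ G s' b) : s = s' := by
  have U : Relator.RightUnique G := fun a b c h1 h2 => hG a b c h1 h2
  rcases ReflTransGen.total_of_right_unique U h h' with h1 | h1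
  · exact ((reflTransGen_iff_eq hs).1 h1).symm
  · exact (reflTransGen_iff_eq hs').1 h1

end abstract

/-- A two-way diagram on the ports `P`; `dir p = true` means that the port `p` moves right. -/
@[ext] structure Dg {P : Type u} (dir : P → Bool) where
  r : P → P → Prop

variable {P : Type u} {dir : P → Bool}

instance [Finite P] : Finite (Dg dir) :=
  Finite.of_injective (fun X : Dg dir => X.r) (fun _ _ h => Dg.ext h)

/-- The vertex at which the port `p` enters a cell lying between rows `i` and `j`. -/
def src (dir : P → Bool) (i j : ℕ) (p : P) : ℕ × P := (cond (dir p) i j, p)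

/-- The vertex at which the port `p` leaves a cell lying between rows `i` and `j`. -/
def tgt (dir : P → Bool) (i j : ℕ) (p : P) : ℕ × P := (cond (dir p) j i, p)

/-- The edges of the diagram `X` placed between rows `i` and `j`. -/
def place (X : Dg dir) (i j : ℕ) (u v : ℕ × P) : Prop :=
  u.1 = cond (dir u.2) i j ∧ v.1 = cond (dir v.2) j i ∧ X.r u.2 v.2

theorem place_src_tgt {X : Dg dir} {i j : ℕ} {p q : P} :
    place X i j (src dir i j p) (tgt dir i j q) ↔ X.r p q := by
  simp [place, src, tgt]

theorem place_iff {X : Dg dir} {i j : ℕ} {u v : ℕ × P} :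
    place X i j u v ↔ u = src dir i j u.2 ∧ v = tgt dir i j v.2 ∧ X.r u.2 v.2 := by
  obtain ⟨a, p⟩ := u
  obtain ⟨b, q⟩ := v
  simp [place, src, tgt]

/-- Relabel the rows. -/
def rmap (f : ℕ → ℕ) (u : ℕ × P) : ℕ × P := (f u.1, u.2)

theorem place_map {X : Dg dir} {i j : ℕ} (f : ℕ → ℕ) {u v : ℕ × P} (h : place X i j u v) :
    place X (f i) (f j) (rmap f u) (rmap f v) := by
  obtain ⟨h1, h2, h3⟩ := h
  refine ⟨?_, ?_, h3⟩
  · simp only [rmap, h1]; cases dir u.2 <;> rfl
  · simp only [rmap, h2]; cases dir v.2 <;> rfl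

theorem rmap_src (f : ℕ → ℕ) (i j : ℕ) (p : P) : rmap f (src dir i j p) = src dir (f i) (f j) p := by
  simp only [rmap, src]; cases dir p <;> rfl

theorem rmap_tgt (f : ℕ → ℕ) (i j : ℕ) (p : P) : rmap f (tgt dir i j p) = tgt dir (f i) (f j) p := by
  simp only [rmap, tgt]; cases dir p <;> rfl

theorem src_ne_tgt {i j : ℕ} (hij : i ≠ j) (p q : P) : src dir i j p ≠ tgt dir i j q := by
  intro h
  simp only [src, tgt, Prod.mk.injEq] at h
  obtain ⟨h1, rfl⟩ := h
  cases hd : dir p <;> simp [hd] at h1 <;> omega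

/-- Two cells glued along the row `j`. -/
def G2 (X Y : Dg dir) (i j k : ℕ) (u v : ℕ × P) : Prop := place X i j u v ∨ place Y j k u v

theorem G2_map {X Y : Dg dir} {i j k : ℕ} (f : ℕ → ℕ) {u v : ℕ × P}
    (h : ReflTransGen (G2 X Y i j k) u v) :
    ReflTransGen (G2 X Y (f i) (f j) (f k)) (rmap f u) (rmap f v) :=
  rtg_lift (rmap f) (fun _ _ hab => .single (hab.imp (place_map f) (place_map f))) h

instance : Mul (Dg dir) :=
  ⟨fun X Y => ⟨fun p q => ReflTransGen (G2 X Y 0 1 2) (src dir 0 2 p) (tgt dir 0 2 q)⟩⟩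

instance : One (Dg dir) := ⟨⟨fun p q => p = q⟩⟩

theorem mul_r (X Y : Dg dir) (p q : P) :
    (X * Y).r p q ↔ ReflTransGen (G2 X Y 0 1 2) (src dir 0 2 p) (tgt dir 0 2 q) := Iff.rfl

theorem one_r (p q : P) : (1 : Dg dir).r p q ↔ p = q := Iff.rfl

theorem mul_r_iff (X Y : Dg dir) {i j k : ℕ} (hij : i ≠ j) (hjk : j ≠ k) (hik : i ≠ k) (p q : P) :
    (X * Y).r p q ↔ ReflTransGen (G2 X Y i j k) (src dir i k p) (tgt dir i k q) := by
  constructor
  · intro h
    have := G2_map (fun n => if n = 0 then i else if n = 1 then j else k) h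
    simpa [rmap_src, rmap_tgt] using this
  · intro h
    have := G2_map (fun n => if n = i then 0 else if n = j then 1 else 2) h
    simpa [rmap_src, rmap_tgt, hij.symm, hjk.symm, hik.symm, mul_r] using this

theorem place_mul_expand {X Y : Dg dir} {i j k : ℕ} (hij : i ≠ j) (hjk : j ≠ k) (hik : i ≠ k)
    {u v : ℕ × P} (h : place (X * Y) i k u v) : ReflTransGen (G2 X Y i j k) u v := by
  obtain ⟨h1, h2, h3⟩ := place_iff.1 h
  rw [h1, h2]
  exact (mul_r_iff X Y hij hjk hik _ _).1 h3

theorem place_mul_of {X Y : Dg dir} {i j k : ℕ} (hij : i ≠ j) (hjk : j ≠ k) (hik : i ≠ k)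
    {u v : ℕ × P} (hu : u.1 ≠ j) (hv : v.1 ≠ j) (h : TransGen (G2 X Y i j k) u v) :
    place (X * Y) i k u v := by
  have h1 : u = src dir i k u.2 := by
    obtain ⟨b, hb, -⟩ := TransGen.head'_iff.1 h
    obtain ⟨a, p⟩ := u
    simp only [src, Prod.mk.injEq, and_true]
    rcases hb with hb | hb <;> have := hb.1 <;> revert this hu <;> cases dir p <;> simp <;> tauto
  have h2 : v = tgt dir i k v.2 := by
    obtain ⟨b, -, hb⟩ := TransGen.tail'_iff.1 h
    obtain ⟨a, p⟩ := v
    simp only [tgt, Prod.mk.injEq, and_true]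
    rcases hb with hb | hb <;> have := hb.2.1 <;> revert this hv <;> cases dir p <;> simp <;> tauto
  refine place_iff.2 ⟨h1, h2, ?_⟩
  rw [mul_r_iff X Y hij hjk hik, ← h1, ← h2]
  exact h.to_reflTransGen

theorem place_rows {X : Dg dir} {i j : ℕ} {u v : ℕ × P} (h : place X i j u v) :
    (u.1 = i ∨ u.1 = j) ∧ (v.1 = i ∨ v.1 = j) := by
  obtain ⟨h1, h2, -⟩ := h
  constructor
  · rw [h1]; cases dir u.2 <;> simp
  · rw [h2]; cases dir v.2 <;> simp

/-- Contraction of two adjacent cells inside a bigger graph. -/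
theorem contract {X Y : Dg dir} {i j k : ℕ} (hij : i ≠ j) (hjk : j ≠ k) (hik : i ≠ k)
    {G G' H : ℕ × P → ℕ × P → Prop}
    (hG : ∀ a b, G a b ↔ H a b ∨ G2 X Y i j k a b)
    (hG' : ∀ a b, G' a b ↔ H a b ∨ place (X * Y) i k a b)
    (hH : ∀ a b, H a b → a.1 ≠ j ∧ b.1 ≠ j) {u v : ℕ × P} (hu : u.1 ≠ j) (hv : v.1 ≠ j) :
    ReflTransGen G u v ↔ ReflTransGen G' u v := by
  constructor
  · intro h
    refine rtg_contract (fun a => a.1 = j) (fun a b hab => (hG a b).1 hab) hH
      (fun a b hab => (hG' a b).2 (Or.inl hab))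
      (fun a b ha hb hab => (hG' a b).2 (Or.inr (place_mul_of hij hjk hik ha hb hab))) hu hv h
  · intro h
    refine rtg_mono' (fun a b hab => ?_) h
    rcases (hG' a b).1 hab with h1 | h1
    · exact .single ((hG a b).2 (Or.inl h1))
    · exact rtg_mono (fun a b hab => (hG a b).2 (Or.inr hab)) (place_mul_expand hij hjk hik h1)

theorem single_cell {X : Dg dir} {i j : ℕ} (hij : i ≠ j) {p q : P}
    (h : ReflTransGen (place X i j) (src dir i j p) (tgt dir i j q)) : X.r p q := by
  rcases h.cases_head with h0 | ⟨c, hc, hrest⟩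
  · exact absurd h0 (src_ne_tgt hij p q)
  · obtain ⟨-, h2, h3⟩ := place_iff.1 hc
    have : tgt dir i j q = c := by
      refine (reflTransGen_iff_eq ?_).1 hrest
      intro b hb
      exact src_ne_tgt hij c.2 c.2 ((place_iff.1 hb).1.symm.trans h2)
    rw [← this] at h3
    exact h3

/-- Three cells glued along the rows `j` and `k`. -/
def G3 (A X B : Dg dir) (i j k l : ℕ) (u v : ℕ × P) : Prop :=
  place A i j u v ∨ place X j k u v ∨ place B k l u v

theorem G3_map {A X B : Dg dir} {i j k l : ℕ} (f : ℕ → ℕ) {u v : ℕ × P}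
    (h : ReflTransGen (G3 A X B i j k l) u v) :
    ReflTransGen (G3 A X B (f i) (f j) (f k) (f l)) (rmap f u) (rmap f v) :=
  rtg_lift (rmap f) (fun _ _ hab => .single
    (hab.imp (place_map f) (fun h => h.imp (place_map f) (place_map f)))) h

theorem dg_mul_assoc (X Y Z : Dg dir) : X * Y * Z = X * (Y * Z) := by
  ext p q
  rw [mul_r_iff (X * Y) Z (i := 0) (j := 2) (k := 3) (by omega) (by omega) (by omega),
    mul_r_iff X (Y * Z) (i := 0) (j := 1) (k := 3) (by omega) (by omega) (by omega)]
  have h1 := contract (X := X) (Y := Y) (i := 0) (j := 1) (k := 2) (by omega) (by omega) (by omega)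
    (G := G3 X Y Z 0 1 2 3) (G' := G2 (X * Y) Z 0 2 3) (H := place Z 2 3)
    (by intro a b; simp only [G3, G2]; tauto) (by intro a b; simp only [G2]; tauto)
    (by intro a b h; have := place_rows h; omega)
    (u := src dir 0 3 p) (v := tgt dir 0 3 q)
    (by simp only [src]; cases dir p <;> simp) (by simp only [tgt]; cases dir q <;> simp)
  have h2 := contract (X := Y) (Y := Z) (i := 1) (j := 2) (k := 3) (by omega) (by omega) (by omega)
    (G := G3 X Y Z 0 1 2 3) (G' := G2 X (Y * Z) 0 1 3) (H := place X 0 1)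
    (by intro a b; simp only [G3, G2]) (by intro a b; simp only [G2])
    (by intro a b h; have := place_rows h; omega)
    (u := src dir 0 3 p) (v := tgt dir 0 3 q)
    (by simp only [src]; cases dir p <;> simp) (by simp only [tgt]; cases dir q <;> simp)
  rw [← h1, ← h2]

theorem dg_one_mul (X : Dg dir) : 1 * X = X := by
  ext p q
  rw [mul_r]
  constructor
  · intro h
    have := rtg_lift (H := place X 1 2) (rmap (fun n => if n = 0 then 1 else n)) (fun a b hab => by
      rcases hab with hab | hab
      · obtain ⟨a1, a2⟩ := a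
        obtain ⟨b1, b2⟩ := b
        obtain ⟨h1, h2, h3⟩ := hab
        simp only [one_r] at h1 h2 h3
        subst h3
        have : rmap (fun n => if n = 0 then 1 else n) (a1, a2) =
            rmap (fun n => if n = 0 then 1 else n) (b1, a2) := by
          simp only [rmap, h1, h2]; cases dir a2 <;> simp
        rw [this]
      · exact .single (by simpa using place_map (fun n => if n = 0 then 1 else n) hab)) h
    rw [rmap_src, rmap_tgt] at this
    exact single_cell (i := 1) (j := 2) (by omega) (by simpa using this)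
  · intro h
    have h1 : ReflTransGen (G2 1 X 0 1 2) (src dir 0 2 p) (src dir 1 2 p) := by
      cases hd : dir p
      · simp only [src, hd]; exact .refl
      · exact .single (Or.inl (by simp [place, src, hd, one_r]))
    have h2 : ReflTransGen (G2 1 X 0 1 2) (tgt dir 1 2 q) (tgt dir 0 2 q) := by
      cases hd : dir q
      · exact .single (Or.inl (by simp [place, tgt, hd, one_r]))
      · simp only [tgt, hd]; exact .refl
    exact (h1.tail (Or.inr (place_src_tgt.2 h))).trans h2

theorem dg_mul_one (X : Dg dir) : X * 1 = X := by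
  ext p q
  rw [mul_r]
  constructor
  · intro h
    have := rtg_lift (H := place X 0 1) (rmap (fun n => if n = 2 then 1 else n)) (fun a b hab => by
      rcases hab with hab | hab
      · exact .single (by simpa using place_map (fun n => if n = 2 then 1 else n) hab)
      · obtain ⟨a1, a2⟩ := a
        obtain ⟨b1, b2⟩ := b
        obtain ⟨h1, h2, h3⟩ := hab
        simp only [one_r] at h1 h2 h3
        subst h3
        have : rmap (fun n => if n = 2 then 1 else n) (a1, a2) =
            rmap (fun n => if n = 2 then 1 else n) (b1, a2) := by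
          simp only [rmap, h1, h2]; cases dir a2 <;> simp
        rw [this]) h
    rw [rmap_src, rmap_tgt] at this
    exact single_cell (i := 0) (j := 1) (by omega) (by simpa using this)
  · intro h
    have h1 : ReflTransGen (G2 X 1 0 1 2) (src dir 0 2 p) (src dir 0 1 p) := by
      cases hd : dir p
      · exact .single (Or.inr (by simp [place, src, hd, one_r]))
      · simp only [src, hd]; exact .refl
    have h2 : ReflTransGen (G2 X 1 0 1 2) (tgt dir 0 1 q) (tgt dir 0 2 q) := by
      cases hd : dir q
      · simp only [tgt, hd]; exact .refl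
      · exact .single (Or.inr (by simp [place, tgt, hd, one_r]))
    exact (h1.tail (Or.inl (place_src_tgt.2 h))).trans h2

instance : Monoid (Dg dir) where
  mul_assoc := dg_mul_assoc
  one_mul := dg_one_mul
  mul_one := dg_mul_one

end Crest.Agent.R294
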