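import Crest.Agent.R294.Graph

set_option autoImplicit false

/-!
The crossing relation of a diagram in a left and a right context, and its composition laws.
-/

namespace Crest.Agent.R294

open Relation

universe u

variable {P : Type u} {dir : P → Bool}

/-- `p` crosses the cell `X` (in its own direction) and comes out as `q`, in the contexts
`A` (left) and `B` (right). -/
def rel (A X B : Dg dir) (p q : P) : Prop :=
  dir p = dir q ∧ ReflTransGen (G3 A X B 0 1 2 3) (src dir 1 2 p) (tgt dir 1 2 q)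

/-- Inclusion of the right-boundary returns. -/
def LRle (A A' : Dg dir) : Prop := ∀ p q, dir p = false → dir q = true → A.r p q → A'.r p q

/-- Inclusion of the left-boundary returns. -/
def RLle (B B' : Dg dir) : Prop := ∀ p q, dir p = true → dir q = false → B.r p q → B'.r p q

/-- Inclusion of diagrams. -/
def Dle (X X' : Dg dir) : Prop := ∀ p q, X.r p q → X'.r p q

theorem LRle.rfl {A : Dg dir} : LRle A A := fun _ _ _ _ h => h
theorem RLle.rfl {A : Dg dir} : RLle A A := fun _ _ _ _ h => h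
theorem Dle.rfl {A : Dg dir} : Dle A A := fun _ _ h => h

theorem LRle_one (A : Dg dir) : LRle 1 A := by
  intro p q hp hq h
  rw [one_r] at h; subst h; simp [hp] at hq

theorem RLle_one (A : Dg dir) : RLle 1 A := by
  intro p q hp hq h
  rw [one_r] at h; subst h; simp [hp] at hq

theorem RLle_mul (X Y : Dg dir) : RLle X (X * Y) := by
  intro p q hp hq h
  rw [mul_r]
  exact .single (Or.inl (by simp [place, src, tgt, hp, hq, h]))

theorem LRle_mul (X Y : Dg dir) : LRle Y (X * Y) := by
  intro p q hp hq h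
  rw [mul_r]
  exact .single (Or.inr (by simp [place, src, tgt, hp, hq, h]))

theorem G3_mono {A X B A' X' B' : Dg dir} (hA : LRle A A') (hX : Dle X X') (hB : RLle B B')
    {u v : ℕ × P} (hu : u.1 = 1 ∨ u.1 = 2) (hv : v.1 = 1 ∨ v.1 = 2)
    (h : ReflTransGen (G3 A X B 0 1 2 3) u v) : ReflTransGen (G3 A' X' B' 0 1 2 3) u v := by
  refine rtg_survive h (fun a b ha hab hb => ?_)
  have hin : a.1 = 0 ∨ a.1 = 3 → a.1 = cond (dir a.2) 3 0 := by
    intro h0
    rcases ha.cases_tail with rfl | ⟨c, -, hc⟩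
    · omega
    · rcases hc with hc | hc | hc <;> have := hc.2.1 <;> revert this h0 <;>
        cases dir a.2 <;> simp <;> omega
  have hout : b.1 = 0 ∨ b.1 = 3 → b.1 = cond (dir b.2) 0 3 := by
    intro h0
    rcases hb.cases_head with rfl | ⟨c, hc, -⟩
    · omega
    · rcases hc with hc | hc | hc <;> have := hc.1 <;> revert this h0 <;>
        cases dir b.2 <;> simp <;> omega
  rcases hab with hab | hab | hab
  · obtain ⟨h1, h2, h3⟩ := hab
    refine Or.inl ⟨h1, h2, hA _ _ ?_ ?_ h3⟩
    · revert h1 hin; cases dir a.2 <;> simp; omega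
    · revert h2 hout; cases dir b.2 <;> simp; omega
  · exact Or.inr (Or.inl ⟨hab.1, hab.2.1, hX _ _ hab.2.2⟩)
  · obtain ⟨h1, h2, h3⟩ := hab
    refine Or.inr (Or.inr ⟨h1, h2, hB _ _ ?_ ?_ h3⟩)
    · revert h1 hin; cases dir a.2 <;> simp; omega
    · revert h2 hout; cases dir b.2 <;> simp; omega

theorem src_row (i j : ℕ) (p : P) : (src dir i j p).1 = i ∨ (src dir i j p).1 = j := by
  simp only [src]; cases dir p <;> simp

theorem tgt_row (i j : ℕ) (p : P) : (tgt dir i j p).1 = i ∨ (tgt dir i j p).1 = j := by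
  simp only [tgt]; cases dir p <;> simp

theorem rel_mono {A X B A' X' B' : Dg dir} (hA : LRle A A') (hX : Dle X X') (hB : RLle B B')
    {p q : P} (h : rel A X B p q) : rel A' X' B' p q :=
  ⟨h.1, G3_mono hA hX hB (src_row _ _ _) (tgt_row _ _ _) h.2⟩

theorem rel_ctx {A X B A' B' : Dg dir} (hA : LRle A A') (hB : RLle B B')
    {p q : P} (h : rel A X B p q) : rel A' X B' p q := rel_mono hA Dle.rfl hB h

theorem rel_of_r (A B : Dg dir) {X : Dg dir} {p q : P} (hd : dir p = dir q) (h : X.r p q) :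
    rel A X B p q :=
  ⟨hd, .single (Or.inr (Or.inl (place_src_tgt.2 h)))⟩

theorem r_of_rel {X : Dg dir} {p q : P} (h : rel 1 X 1 p q) : X.r p q := by
  have h' : rel ⟨fun _ _ => False⟩ X ⟨fun _ _ => False⟩ p q := rel_ctx (LRle_one _) (RLle_one _) h
  refine single_cell (i := 1) (j := 2) (by omega) (rtg_mono ?_ h'.2)
  intro a b hab
  rcases hab with hab | hab | hab
  · exact hab.2.2.elim
  · exact hab
  · exact hab.2.2.elim

theorem rel_iff (A X B : Dg dir) {i j k l : ℕ} (hij : i < j) (hjk : j < k) (hkl : k < l)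
    (p q : P) : rel A X B p q ↔
      dir p = dir q ∧ ReflTransGen (G3 A X B i j k l) (src dir j k p) (tgt dir j k q) := by
  refine and_congr_right fun _ => ⟨fun h => ?_, fun h => ?_⟩
  · have := G3_map (fun n => if n = 0 then i else if n = 1 then j else if n = 2 then k else l) h
    simpa [rmap_src, rmap_tgt] using this
  · have := G3_map (fun n => if n = i then 0 else if n = j then 1 else if n = k then 2 else 3) h
    have h1 : j ≠ i := by omega
    have h2 : k ≠ i := by omega
    have h3 : l ≠ i := by omega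
    have h4 : k ≠ j := by omega
    have h5 : l ≠ j := by omega
    have h6 : l ≠ k := by omega
    simpa [rmap_src, rmap_tgt, h1, h2, h3, h4, h5, h6] using this

/-- Four cells in a row. -/
def G4 (A X Y B : Dg dir) (u v : ℕ × P) : Prop :=
  place A 0 1 u v ∨ place X 1 2 u v ∨ place Y 2 3 u v ∨ place B 3 4 u v

theorem rel_left (A X Y B : Dg dir) (p q : P) : rel A X (Y * B) p q ↔
    dir p = dir q ∧ ReflTransGen (G4 A X Y B) (src dir 1 2 p) (tgt dir 1 2 q) := by
  rw [rel_iff A X (Y * B) (i := 0) (j := 1) (k := 2) (l := 4) (by omega) (by omega) (by omega)]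
  refine and_congr_right fun _ => Iff.symm ?_
  refine contract (X := Y) (Y := B) (i := 2) (j := 3) (k := 4) (by omega) (by omega) (by omega)
    (H := fun a b => place A 0 1 a b ∨ place X 1 2 a b)
    (by intro a b; simp only [G4, G2]; tauto) (by intro a b; simp only [G3]; tauto)
    (by intro a b h; rcases h with h | h <;> have := place_rows h <;> omega) ?_ ?_
  · have := src_row (dir := dir) 1 2 p; omega
  · have := tgt_row (dir := dir) 1 2 q; omega

theorem rel_right (A X Y B : Dg dir) (p q : P) : rel (A * X) Y B p q ↔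
    dir p = dir q ∧ ReflTransGen (G4 A X Y B) (src dir 2 3 p) (tgt dir 2 3 q) := by
  rw [rel_iff (A * X) Y B (i := 0) (j := 2) (k := 3) (l := 4) (by omega) (by omega) (by omega)]
  refine and_congr_right fun _ => Iff.symm ?_
  refine contract (X := A) (Y := X) (i := 0) (j := 1) (k := 2) (by omega) (by omega) (by omega)
    (H := fun a b => place Y 2 3 a b ∨ place B 3 4 a b)
    (by intro a b; simp only [G4, G2]; tauto) (by intro a b; simp only [G3]; tauto)
    (by intro a b h; rcases h with h | h <;> have := place_rows h <;> omega) ?_ ?_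
  · have := src_row (dir := dir) 2 3 p; omega
  · have := tgt_row (dir := dir) 2 3 q; omega

theorem rel_mid (A X Y B : Dg dir) (p q : P) : rel A (X * Y) B p q ↔
    dir p = dir q ∧ ReflTransGen (G4 A X Y B) (src dir 1 3 p) (tgt dir 1 3 q) := by
  rw [rel_iff A (X * Y) B (i := 0) (j := 1) (k := 3) (l := 4) (by omega) (by omega) (by omega)]
  refine and_congr_right fun _ => Iff.symm ?_
  refine contract (X := X) (Y := Y) (i := 1) (j := 2) (k := 3) (by omega) (by omega) (by omega)
    (H := fun a b => place A 0 1 a b ∨ place B 3 4 a b)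
    (by intro a b; simp only [G4, G2]; tauto) (by intro a b; simp only [G3]; tauto)
    (by intro a b h; rcases h with h | h <;> have := place_rows h <;> omega) ?_ ?_
  · have := src_row (dir := dir) 1 3 p; omega
  · have := tgt_row (dir := dir) 1 3 q; omega

theorem rel_comp_r {A X Y B : Dg dir} {p q r : P} (hp : dir p = true)
    (h1 : rel A X (Y * B) p q) (h2 : rel (A * X) Y B q r) : rel A (X * Y) B p r := by
  rw [rel_left] at h1
  rw [rel_right] at h2
  rw [rel_mid]
  have hq : dir q = true := h1.1 ▸ hp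
  have hr : dir r = true := h2.1 ▸ hq
  refine ⟨hp.trans hr.symm, ?_⟩
  have a1 := h1.2
  have a2 := h2.2
  simp only [src, tgt, hp, hq, hr, cond_true] at a1 a2 ⊢
  exact a1.trans a2

theorem rel_comp_l {A X Y B : Dg dir} {p q r : P} (hp : dir p = false)
    (h1 : rel (A * X) Y B p q) (h2 : rel A X (Y * B) q r) : rel A (X * Y) B p r := by
  rw [rel_right] at h1
  rw [rel_left] at h2
  rw [rel_mid]
  have hq : dir q = false := h1.1 ▸ hp
  have hr : dir r = false := h2.1 ▸ hq
  refine ⟨hp.trans hr.symm, ?_⟩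
  have a1 := h1.2
  have a2 := h2.2
  simp only [src, tgt, hp, hq, hr, cond_false] at a1 a2 ⊢
  exact a1.trans a2

/-- The left half of a four-cell graph. -/
def HL (A X : Dg dir) (u v : ℕ × P) : Prop := place A 0 1 u v ∨ place X 1 2 u v

/-- The right half of a four-cell graph. -/
def HR (Y B : Dg dir) (u v : ℕ × P) : Prop := place Y 2 3 u v ∨ place B 3 4 u v

theorem G4_LR {A X Y B : Dg dir} (a b : ℕ × P) (h : G4 A X Y B a b) : HL A X a b ∨ HR Y B a b := by
  simp only [G4, HL, HR] at h ⊢; tauto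

theorem G4_RL {A X Y B : Dg dir} (a b : ℕ × P) (h : G4 A X Y B a b) : HR Y B a b ∨ HL A X a b :=
  (G4_LR a b h).symm

theorem GL_rows {A X : Dg dir} {a b : ℕ × P} (h : HL A X a b) :
    a.1 ≤ 2 ∧ b.1 ≤ 2 ∧ (a.1 = 2 → dir a.2 = false) ∧ (b.1 = 2 → dir b.2 = true) := by
  rcases h with ⟨h1, h2, -⟩ | ⟨h1, h2, -⟩ <;> revert h1 h2 <;> cases dir a.2 <;>
    cases dir b.2 <;> simp <;> omega

theorem GR_rows {Y B : Dg dir} {a b : ℕ × P} (h : HR Y B a b) :
    2 ≤ a.1 ∧ 2 ≤ b.1 ∧ (a.1 = 2 → dir a.2 = true) ∧ (b.1 = 2 → dir b.2 = false) := by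
  rcases h with ⟨h1, h2, -⟩ | ⟨h1, h2, -⟩ <;> revert h1 h2 <;> cases dir a.2 <;>
    cases dir b.2 <;> simp <;> omega

theorem GL_le_tail {A X : Dg dir} {a b : ℕ × P} (h : ReflTransGen (HL A X) a b) (ha : a.1 ≤ 2) :
    b.1 ≤ 2 := by
  rcases h.cases_tail with rfl | ⟨c, -, hc⟩
  · exact ha
  · exact (GL_rows hc).2.1

theorem GL_le_head {A X : Dg dir} {a b : ℕ × P} (h : ReflTransGen (HL A X) a b) (hb : b.1 ≤ 2) :
    a.1 ≤ 2 := by
  rcases h.cases_head with rfl | ⟨c, hc, -⟩
  · exact hb
  · exact (GL_rows hc).1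

theorem GR_le_tail {Y B : Dg dir} {a b : ℕ × P} (h : ReflTransGen (HR Y B) a b) (ha : 2 ≤ a.1) :
    2 ≤ b.1 := by
  rcases h.cases_tail with rfl | ⟨c, -, hc⟩
  · exact ha
  · exact (GR_rows hc).2.1

theorem GR_le_head {Y B : Dg dir} {a b : ℕ × P} (h : ReflTransGen (HR Y B) a b) (hb : 2 ≤ b.1) :
    2 ≤ a.1 := by
  rcases h.cases_head with rfl | ⟨c, hc, -⟩
  · exact hb
  · exact (GR_rows hc).1

theorem rel_of_GL {A X : Dg dir} {p q : P} (hd : dir p = dir q)
    (h : ReflTransGen (HL A X) (src dir 1 2 p) (tgt dir 1 2 q)) : rel A X 1 p q :=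
  ⟨hd, rtg_mono (fun a b hab => by simp only [HL, G3] at hab ⊢; tauto) h⟩

theorem rel_of_GR {Y B : Dg dir} {p q : P} (hd : dir p = dir q)
    (h : ReflTransGen (HR Y B) (src dir 2 3 p) (tgt dir 2 3 q)) : rel 1 Y B p q := by
  rw [rel_iff 1 Y B (i := 1) (j := 2) (k := 3) (l := 4) (by omega) (by omega) (by omega)]
  exact ⟨hd, rtg_mono (fun a b hab => by simp only [HR, G3] at hab ⊢; tauto) h⟩

/-- First arrival, rightwards. -/
theorem rel_first_r {A X Y B : Dg dir} {p r : P} (hp : dir p = true) (h : rel A (X * Y) B p r) :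
    ∃ q, rel A X 1 p q ∧ rel (A * X) Y B q r := by
  rw [rel_mid] at h
  have hr : dir r = true := h.1 ▸ hp
  have h2 := h.2
  simp only [src, tgt, hp, hr, cond_true] at h2
  rcases rtg_first G4_RL h2 with h3 | ⟨w, w', h3, h4, h5⟩
  · have := GL_le_tail h3 (by simp); simp at this
  · have e1 := GL_le_tail h3 (by simp)
    have e2 := GR_rows h4
    obtain ⟨k, q⟩ := w
    obtain rfl : k = 2 := by simp only at e1 e2; omega
    have hq : dir q = true := e2.2.2.1 rfl
    refine ⟨q, rel_of_GL (hp.trans hq.symm) (by simpa [src, tgt, hp, hq] using h3), ?_⟩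
    rw [rel_right]
    refine ⟨hq.trans hr.symm, ?_⟩
    simp only [src, tgt, hq, hr, cond_true]
    exact h5.head (by simp only [HR, G4] at h4 ⊢; tauto)

/-- Last departure, rightwards. -/
theorem rel_last_r {A X Y B : Dg dir} {p r : P} (hp : dir p = true) (h : rel A (X * Y) B p r) :
    ∃ q, rel A X (Y * B) p q ∧ rel 1 Y B q r := by
  rw [rel_mid] at h
  have hr : dir r = true := h.1 ▸ hp
  have h2 := h.2
  simp only [src, tgt, hp, hr, cond_true] at h2
  rcases rtg_last G4_LR h2 with h3 | ⟨w, w', h3, h4, h5⟩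
  · have := GR_le_head h3 (by simp); simp at this
  · have e1 := GR_le_head h5 (by simp)
    have e2 := GL_rows h4
    obtain ⟨k, q⟩ := w'
    obtain rfl : k = 2 := by simp only at e1 e2; omega
    have hq : dir q = true := e2.2.2.2 rfl
    refine ⟨q, ?_, rel_of_GR (hq.trans hr.symm) (by simpa [src, tgt, hr, hq] using h5)⟩
    rw [rel_left]
    refine ⟨hp.trans hq.symm, ?_⟩
    simp only [src, tgt, hq, hp, cond_true]
    exact h3.tail (by simp only [HL, G4] at h4 ⊢; tauto)

/-- First arrival, leftwards. -/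
theorem rel_first_l {A X Y B : Dg dir} {p r : P} (hp : dir p = false) (h : rel A (X * Y) B p r) :
    ∃ q, rel 1 Y B p q ∧ rel A X (Y * B) q r := by
  rw [rel_mid] at h
  have hr : dir r = false := h.1 ▸ hp
  have h2 := h.2
  simp only [src, tgt, hp, hr, cond_false] at h2
  rcases rtg_first G4_LR h2 with h3 | ⟨w, w', h3, h4, h5⟩
  · have := GR_le_tail h3 (by simp); simp at this
  · have e1 := GR_le_tail h3 (by simp)
    have e2 := GL_rows h4
    obtain ⟨k, q⟩ := w
    obtain rfl : k = 2 := by simp only at e1 e2; omega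
    have hq : dir q = false := e2.2.2.1 rfl
    refine ⟨q, rel_of_GR (hp.trans hq.symm) (by simpa [src, tgt, hp, hq] using h3), ?_⟩
    rw [rel_left]
    refine ⟨hq.trans hr.symm, ?_⟩
    simp only [src, tgt, hq, hr, cond_false]
    exact h5.head (by simp only [HL, G4] at h4 ⊢; tauto)

/-- Last departure, leftwards. -/
theorem rel_last_l {A X Y B : Dg dir} {p r : P} (hp : dir p = false) (h : rel A (X * Y) B p r) :
    ∃ q, rel (A * X) Y B p q ∧ rel A X 1 q r := by
  rw [rel_mid] at h
  have hr : dir r = false := h.1 ▸ hp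
  have h2 := h.2
  simp only [src, tgt, hp, hr, cond_false] at h2
  rcases rtg_last G4_RL h2 with h3 | ⟨w, w', h3, h4, h5⟩
  · have := GL_le_head h3 (by simp); simp at this
  · have e1 := GL_le_head h5 (by simp)
    have e2 := GR_rows h4
    obtain ⟨k, q⟩ := w'
    obtain rfl : k = 2 := by simp only at e1 e2; omega
    have hq : dir q = false := e2.2.2.2 rfl
    refine ⟨q, ?_, rel_of_GL (hq.trans hr.symm) (by simpa [src, tgt, hr, hq] using h5)⟩
    rw [rel_right]
    refine ⟨hp.trans hq.symm, ?_⟩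
    simp only [src, tgt, hq, hp, cond_false]
    exact h3.tail (by simp only [HR, G4] at h4 ⊢; tauto)

/-- A diagram is deterministic when every port has at most one exit. -/
def Det (X : Dg dir) : Prop := ∀ p q q', X.r p q → X.r p q' → q = q'

theorem place_det {X : Dg dir} (hX : Det X) {i j : ℕ} {a b c : ℕ × P} (h1 : place X i j a b)
    (h2 : place X i j a c) : b = c := by
  have := hX _ _ _ h1.2.2 h2.2.2
  obtain ⟨b1, b2⟩ := b
  obtain ⟨c1, c2⟩ := c
  simp only at this
  subst this
  exact Prod.ext (h1.2.1.trans h2.2.1.symm) rfl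

theorem Det_one : Det (1 : Dg dir) := by
  intro p q q' h1 h2
  rw [one_r] at h1 h2
  rw [← h1, ← h2]

theorem Det_mul {X Y : Dg dir} (hX : Det X) (hY : Det Y) : Det (X * Y) := by
  intro p q q' h1 h2
  rw [mul_r] at h1 h2
  have hs : ∀ (z : P) b, ¬ G2 X Y 0 1 2 (tgt dir 0 2 z) b := by
    intro z b hb
    rcases hb with hb | hb <;> have := hb.1 <;> revert this <;> simp only [tgt] <;>
      cases dir z <;> simp
  have := sink_unique (G := G2 X Y 0 1 2) (by
    intro a b c hb hc
    rcases hb with hb | hb <;> rcases hc with hc | hc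
    · exact place_det hX hb hc
    · have := hb.1.symm.trans hc.1; revert this; cases dir a.2 <;> simp
    · have := hb.1.symm.trans hc.1; revert this; cases dir a.2 <;> simp
    · exact place_det hY hb hc) h1 h2 (hs q) (hs q')
  exact congrArg Prod.snd this

theorem G3_det {A X B : Dg dir} (hA : Det A) (hX : Det X) (hB : Det B) (a b c : ℕ × P)
    (hb : G3 A X B 0 1 2 3 a b) (hc : G3 A X B 0 1 2 3 a c) : b = c := by
  rcases hb with hb | hb | hb <;> rcases hc with hc | hc | hc <;>
    first
    | exact place_det hA hb hc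
    | exact place_det hX hb hc
    | exact place_det hB hb hc
    | (have := hb.1.symm.trans hc.1; revert this; cases dir a.2 <;> simp)

theorem mul_dom_r {X Y : Dg dir} {p q : P} (hp : dir p = true) (h : (X * Y).r p q) :
    ∃ z, X.r p z := by
  rw [mul_r] at h
  rcases h.cases_head with h0 | ⟨c, hc, -⟩
  · exact absurd h0 (src_ne_tgt (by omega) p q)
  · rcases hc with hc | hc
    · exact ⟨_, hc.2.2⟩
    · have := hc.1; simp [src, hp] at this

theorem mul_dom_l {X Y : Dg dir} {p q : P} (hp : dir p = false) (h : (X * Y).r p q) :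
    ∃ z, Y.r p z := by
  rw [mul_r] at h
  rcases h.cases_head with h0 | ⟨c, hc, -⟩
  · exact absurd h0 (src_ne_tgt (by omega) p q)
  · rcases hc with hc | hc
    · have := hc.1; simp [src, hp] at this
    · exact ⟨_, hc.2.2⟩

theorem eq_of_det {E X : Dg dir} (hX : Det X) (h1 : E * X = X) (h2 : X * E = X) (h : Dle E X) :
    X = E := by
  ext p q
  refine ⟨fun hpq => ?_, h p q⟩
  have : ∃ z, E.r p z := by
    cases hp : dir p
    · exact mul_dom_l hp (h2.symm ▸ hpq)
    · exact mul_dom_r hp (h1.symm ▸ hpq)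
  obtain ⟨z, hz⟩ := this
  rw [hX _ _ _ hpq (h _ _ hz)]
  exact hz

theorem mul_mono {X Y X' Y' : Dg dir} (hX : Dle X X') (hY : Dle Y Y') : Dle (X * Y) (X' * Y') := by
  intro p q h
  rw [mul_r] at h ⊢
  refine rtg_mono (fun a b hab => ?_) h
  rcases hab with hab | hab
  · exact Or.inl ⟨hab.1, hab.2.1, hX _ _ hab.2.2⟩
  · exact Or.inr ⟨hab.1, hab.2.1, hY _ _ hab.2.2⟩

/-- The first move of a rightward crossing with empty left context is a crossing edge. -/
theorem exit_r {B C : Dg dir} {q p : P} (hq : dir q = true) (h : rel 1 B C q p) :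
    ∃ z, dir z = true ∧ B.r q z := by
  rw [← mul_one B] at h
  obtain ⟨z, h1, -⟩ := rel_first_r hq h
  exact ⟨z, h1.1 ▸ hq, r_of_rel h1⟩

theorem exit_l {A C : Dg dir} {q p : P} (hq : dir q = false) (h : rel C A 1 q p) :
    ∃ z, dir z = false ∧ A.r q z := by
  rw [← one_mul A] at h
  obtain ⟨z, h1, -⟩ := rel_first_l hq h
  exact ⟨z, h1.1 ▸ hq, r_of_rel h1⟩

end Crest.Agent.R294
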