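import Crest.Agent.R294.Rel

set_option autoImplicit false

/-!
Loop classes of an idempotent diagram, supports, and their behaviour under products.
-/

namespace Crest.Agent.R294

open Relation

universe u

theorem exists_loop {V : Type*} [Finite V] {e : V → V → Prop}
    (htr : ∀ a b c, e a b → e b c → e a c) (hde : ∀ a b, e a b → ∃ c, e a c ∧ e c b) {p q : V}
    (h : e p q) : ∃ r, e p r ∧ e r r ∧ e r q := by
  by_contra hcon
  let T := {r : V // e p r ∧ e r q}
  let s : T → T → Prop := fun a b => e b.1 a.1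
  have : IsTrans T s := ⟨fun a b c h1 h2 => htr _ _ _ h2 h1⟩
  have : Std.Irrefl s := ⟨fun a ha => hcon ⟨a.1, a.2.1, ha, a.2.2⟩⟩
  have wf : WellFounded s := Finite.wellFounded_of_trans_of_irrefl s
  obtain ⟨c, hc1, hc2⟩ := hde _ _ h
  obtain ⟨m, -, hm⟩ := wf.has_min Set.univ ⟨⟨c, hc1, hc2⟩, trivial⟩
  obtain ⟨d, hd1, hd2⟩ := hde _ _ m.2.2
  exact hm ⟨d, htr _ _ _ m.2.1 hd1, hd2⟩ trivial hd1

variable {P : Type u} {dir : P → Bool}

/-- Crossing `X` between two copies of `E`. -/
def cx (E X : Dg dir) (p q : P) : Prop := rel E X E p q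

/-- The contexts seen after (before) `X` contain those of `E`. -/
def good (E X : Dg dir) : Prop := LRle E (E * X) ∧ RLle E (X * E)

theorem good_abs {E X : Dg dir} (h1 : E * X = E) (h2 : X * E = E) : good E X := by
  rw [good, h1, h2]; exact ⟨LRle.rfl, RLle.rfl⟩

theorem LRle_of {E X : Dg dir} (h2 : X * E = X) : LRle E X := by
  have := LRle_mul X E
  rwa [h2] at this

theorem RLle_of {E X : Dg dir} (h1 : E * X = X) : RLle E X := by
  have := RLle_mul E X
  rwa [h1] at this

theorem good_loc {E X : Dg dir} (h1 : E * X = X) (h2 : X * E = X) : good E X := by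
  rw [good, h1, h2]; exact ⟨LRle_of h2, RLle_of h1⟩

theorem cx_comp_r {E X Y : Dg dir} (hX : good E X) (hY : good E Y) {p q r : P}
    (hp : dir p = true) (h1 : cx E X p q) (h2 : cx E Y q r) : cx E (X * Y) p r :=
  rel_comp_r hp (rel_ctx LRle.rfl hY.2 h1) (rel_ctx hX.1 RLle.rfl h2)

theorem cx_comp_l {E X Y : Dg dir} (hX : good E X) (hY : good E Y) {p q r : P}
    (hp : dir p = false) (h1 : cx E Y p q) (h2 : cx E X q r) : cx E (X * Y) p r :=
  rel_comp_l hp (rel_ctx hX.1 RLle.rfl h1) (rel_ctx LRle.rfl hY.2 h2)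

theorem cx_comp {E X Y Z : Dg dir} (hX : good E X) (hY : good E Y) (e1 : X * Y = Z)
    (e2 : Y * X = Z) {p q r : P} (h1 : cx E X p q) (h2 : cx E Y q r) : cx E Z p r := by
  cases hp : dir p
  · exact e2 ▸ cx_comp_l hY hX hp h1 h2
  · exact e1 ▸ cx_comp_r hX hY hp h1 h2

theorem cx_loop_mul {E X Y : Dg dir} (hX : good E X) (hY : good E Y) {p : P}
    (h1 : cx E X p p) (h2 : cx E Y p p) : cx E (X * Y) p p := by
  cases hp : dir p
  · exact cx_comp_l hX hY hp h2 h1
  · exact cx_comp_r hX hY hp h1 h2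

theorem cx_trans {E : Dg dir} (hE : E * E = E) {p q r : P} (h1 : cx E E p q) (h2 : cx E E q r) :
    cx E E p r := cx_comp (good_abs hE hE) (good_abs hE hE) hE hE h1 h2

theorem cx_dense {E : Dg dir} (hE : E * E = E) {p q : P} (h : cx E E p q) :
    ∃ r, cx E E p r ∧ cx E E r q := by
  have h' : rel E (E * E) E p q := by rw [hE]; exact h
  cases hp : dir p
  · obtain ⟨r, h1, h2⟩ := rel_first_l hp h'
    rw [hE] at h2
    exact ⟨r, rel_ctx (LRle_one _) RLle.rfl h1, h2⟩
  · obtain ⟨r, h1, h2⟩ := rel_first_r hp h'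
    rw [hE] at h2
    exact ⟨r, rel_ctx LRle.rfl (RLle_one _) h1, h2⟩

/-- Representatives of the loop classes of `E`. -/
def Pt (E : Dg dir) : Set P :=
  {c | cx E E c c ∧ ∀ q, cx E E c q → cx E E q c → ¬ WellOrderingRel q c}

theorem Pt_unique {E : Dg dir} {c c' : P} (hc : c ∈ Pt E) (hc' : c' ∈ Pt E) (h1 : cx E E c c')
    (h2 : cx E E c' c) : c = c' := by
  rcases trichotomous_of WellOrderingRel c c' with h | h | h
  · exact absurd h (hc'.2 c h2 h1)
  · exact h
  · exact absurd h (hc.2 c' h1 h2)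

theorem Pt_exists {E : Dg dir} (hE : E * E = E) {p : P} (hp : cx E E p p) :
    ∃ c ∈ Pt E, cx E E p c ∧ cx E E c p := by
  have wf : WellFounded (WellOrderingRel : P → P → Prop) := IsWellFounded.wf
  obtain ⟨c, hc, hm⟩ := wf.has_min {q | cx E E p q ∧ cx E E q p} ⟨p, hp, hp⟩
  refine ⟨c, ⟨cx_trans hE hc.2 hc.1, fun q h1 h2 => hm q ⟨?_, ?_⟩⟩, hc.1, hc.2⟩
  · exact cx_trans hE hc.1 h1
  · exact cx_trans hE h2 hc.2

theorem cx_through [Finite P] {E : Dg dir} (hE : E * E = E) {p q : P} (h : cx E E p q) :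
    ∃ c ∈ Pt E, cx E E p c ∧ cx E E c q := by
  obtain ⟨r, h1, h2, h3⟩ := exists_loop (e := cx E E) (fun _ _ _ => cx_trans hE)
    (fun _ _ => cx_dense hE) h
  obtain ⟨c, hc, h4, h5⟩ := Pt_exists hE h2
  exact ⟨c, hc, cx_trans hE h1 h4, cx_trans hE h5 h3⟩

/-- The loop classes of `E` that are not loops of `X`. -/
def supp (E X : Dg dir) : Set P := {c | c ∈ Pt E ∧ ¬ cx E X c c}

theorem supp_self (E : Dg dir) : supp E E = ∅ := by
  ext c
  simp only [supp, Set.mem_ofPred_eq, Set.mem_empty_iff_false, iff_false, not_and, not_not]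
  exact fun h => h.1

theorem supp_mul {E X Y : Dg dir} (hX : good E X) (hY : good E Y) :
    supp E (X * Y) ⊆ supp E X ∪ supp E Y := by
  intro c hc
  by_contra hcon
  simp only [supp, Set.mem_union, Set.mem_ofPred_eq, not_or, not_and, not_not] at hcon
  exact hc.2 (cx_loop_mul hX hY (hcon.1 hc.1) (hcon.2 hc.1))

/-- Entering a class from the outer boundary. -/
def In (E : Dg dir) (u c : P) : Prop :=
  (dir u = true ∧ rel 1 E E u c) ∨ (dir u = false ∧ rel E E 1 u c)

/-- Leaving a class to the outer boundary. -/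
def Out (E : Dg dir) (c u : P) : Prop :=
  (dir c = true ∧ rel E E 1 c u) ∨ (dir c = false ∧ rel 1 E E c u)

theorem In_cx {E : Dg dir} {u c : P} (h : In E u c) : cx E E u c := by
  rcases h with h | h
  · exact rel_ctx (LRle_one _) RLle.rfl h.2
  · exact rel_ctx LRle.rfl (RLle_one _) h.2

theorem Out_cx {E : Dg dir} {u c : P} (h : Out E c u) : cx E E c u := by
  rcases h with h | h
  · exact rel_ctx LRle.rfl (RLle_one _) h.2
  · exact rel_ctx (LRle_one _) RLle.rfl h.2

theorem factor [Finite P] {E : Dg dir} (hE : E * E = E) {u v : P} (hd : dir u = dir v)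
    (h : E.r u v) : ∃ c ∈ Pt E, In E u c ∧ Out E c v := by
  have h0 : rel 1 (E * (E * E)) 1 u v := by rw [hE, hE]; exact rel_of_r _ _ hd h
  cases hu : dir u
  · obtain ⟨a, h1, h2⟩ := rel_last_l hu h0
    have ha : dir a = false := h1.1 ▸ hu
    rw [one_mul] at h1
    obtain ⟨b, h3, h4⟩ := rel_last_l hu h1
    have hb : dir b = false := h3.1 ▸ hu
    rw [hE] at h3
    have h4' : cx E E b a := rel_ctx LRle.rfl (RLle_one _) h4
    obtain ⟨c, hc, h5, h6⟩ := cx_through hE h4'
    have hcd : dir c = false := h5.1 ▸ hb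
    refine ⟨c, hc, Or.inr ⟨hu, ?_⟩, Or.inr ⟨hcd, ?_⟩⟩
    · have := rel_comp_l (A := E) (X := E) (Y := E) (B := 1) hu (by rw [hE]; exact h3)
        (by rw [mul_one]; exact h5)
      rwa [hE] at this
    · have := rel_comp_l (A := 1) (X := E) (Y := E) (B := E) hcd (by rw [one_mul]; exact h6)
        (rel_ctx LRle.rfl (RLle_one _) h2)
      rwa [hE] at this
  · obtain ⟨a, h1, h2⟩ := rel_first_r hu h0
    have ha : dir a = true := h1.1 ▸ hu
    rw [one_mul] at h2
    obtain ⟨b, h3, h4⟩ := rel_first_r ha h2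
    rw [hE] at h4
    have h3' : cx E E a b := rel_ctx LRle.rfl (RLle_one _) h3
    obtain ⟨c, hc, h5, h6⟩ := cx_through hE h3'
    have hcd : dir c = true := h5.1 ▸ ha
    refine ⟨c, hc, Or.inl ⟨hu, ?_⟩, Or.inl ⟨hcd, ?_⟩⟩
    · have := rel_comp_r (A := 1) (X := E) (Y := E) (B := E) hu
        (rel_ctx LRle.rfl (RLle_one _) h1) (by rw [one_mul]; exact h5)
      rwa [hE] at this
    · have := rel_comp_r (A := E) (X := E) (Y := E) (B := 1) hcd (by rw [mul_one]; exact h6)
        (by rw [hE]; exact h4)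
      rwa [hE] at this

theorem unfactor {E X : Dg dir} (h1 : E * X = X) (h2 : X * E = X) {u v c c' : P}
    (hi : In E u c) (hx : cx E X c c') (ho : Out E c' v) : X.r u v := by
  apply r_of_rel
  rcases hi with ⟨hu, hi⟩ | ⟨hu, hi⟩
  · have hc : dir c = true := hi.1 ▸ hu
    have hc' : dir c' = true := hx.1 ▸ hc
    rcases ho with ⟨-, ho⟩ | ⟨h, -⟩
    · have a1 : rel 1 (E * X) E u c' :=
        rel_comp_r hu (rel_ctx LRle.rfl (by rw [h2]; exact RLle_of h1) hi)
          (by rw [one_mul]; exact hx)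
      have a2 := rel_comp_r (A := 1) (X := E * X) (Y := E) (B := 1) hu
        (by rw [mul_one]; exact a1)
        (rel_ctx (by rw [one_mul, h1]; exact LRle_of h2) RLle.rfl ho)
      rwa [h1, h2] at a2
    · simp [hc'] at h
  · have hc : dir c = false := hi.1 ▸ hu
    have hc' : dir c' = false := hx.1 ▸ hc
    rcases ho with ⟨h, -⟩ | ⟨-, ho⟩
    · simp [hc'] at h
    · have a1 : rel E (X * E) 1 u c' :=
        rel_comp_l hu (rel_ctx (by rw [h1]; exact LRle_of h2) RLle.rfl hi)
          (by rw [mul_one]; exact hx)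
      have a2 := rel_comp_l (A := 1) (X := E) (Y := X * E) (B := 1) hu
        (by rw [one_mul]; exact a1)
        (rel_ctx LRle.rfl (by rw [mul_one, h2]; exact RLle_of h1) ho)
      rwa [h2, h1] at a2

theorem r_of_ne {E X : Dg dir} (h1 : E * X = X) (h2 : X * E = X) {u v : P} (hd : dir u ≠ dir v)
    (h : E.r u v) : X.r u v := by
  cases hu : dir u <;> cases hv : dir v
  · simp [hu, hv] at hd
  · exact LRle_of h2 _ _ hu hv h
  · exact RLle_of h1 _ _ hu hv h
  · simp [hu, hv] at hd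

/-- An element of the local monoid with empty support contains the idempotent. -/
theorem Dle_of_supp [Finite P] {E X : Dg dir} (hE : E * E = E) (h1 : E * X = X) (h2 : X * E = X)
    (h : supp E X = ∅) : Dle E X := by
  intro u v huv
  by_cases hd : dir u = dir v
  · obtain ⟨c, hc, hi, ho⟩ := factor hE hd huv
    refine unfactor h1 h2 hi ?_ ho
    by_contra hcon
    have : c ∈ supp E X := ⟨hc, hcon⟩
    rw [h] at this
    exact this
  · exact r_of_ne h1 h2 hd huv

end Crest.Agent.R294
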