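import Crest.Agent.R294.Supp

set_option autoImplicit false

/-!
Transfer of supports between local monoids, and the potential drop along a chain of idempotents.
-/

namespace Crest.Agent.R294

open Relation

universe u

variable {P : Type u} {dir : P → Bool}

/-- Entry point in the three-cell graph `A | Y | B`. -/
def Start (F A B : Dg dir) (p : P) (u : ℕ × P) : Prop :=
  (dir p = true ∧ ∃ q, rel F A 1 p q ∧ u = (1, q)) ∨
    (dir p = false ∧ ∃ q, rel 1 B F p q ∧ u = (2, q))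

/-- Exit point in the three-cell graph `A | Y | B`. -/
def Fin' (F A B : Dg dir) (p : P) (v : ℕ × P) : Prop :=
  (dir p = true ∧ ∃ q, rel 1 B F q p ∧ v = (2, q)) ∨
    (dir p = false ∧ ∃ q, rel F A 1 q p ∧ v = (1, q))

theorem T1 {F A B Y : Dg dir} (hA : F * A = A) (hB : B * F = B) {p p' : P}
    (h : cx F (A * Y * B) p p') :
    ∃ u v, Start F A B p u ∧ ReflTransGen (G3 A Y B 0 1 2 3) u v ∧ Fin' F A B p' v := by
  cases hp : dir p
  · have hp' : dir p' = false := h.1 ▸ hp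
    obtain ⟨q1, h1, h2⟩ := rel_first_l hp h
    have hq1 : dir q1 = false := h1.1 ▸ hp
    obtain ⟨q2, h3, h4⟩ := rel_last_l hq1 h2
    have hq2 : dir q2 = false := h3.1 ▸ hq1
    rw [hA, hB] at h3
    refine ⟨(2, q1), (1, q2), Or.inr ⟨hp, q1, h1, rfl⟩, ?_, Or.inr ⟨hp', q2, h4, rfl⟩⟩
    simpa [src, tgt, hq1, hq2] using h3.2
  · have hp' : dir p' = true := h.1 ▸ hp
    rw [cx, mul_assoc] at h
    obtain ⟨q1, h1, h2⟩ := rel_first_r hp h
    have hq1 : dir q1 = true := h1.1 ▸ hp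
    obtain ⟨q2, h3, h4⟩ := rel_last_r hq1 h2
    have hq2 : dir q2 = true := h3.1 ▸ hq1
    rw [hA, hB] at h3
    refine ⟨(1, q1), (2, q2), Or.inl ⟨hp, q1, h1, rfl⟩, ?_, Or.inl ⟨hp', q2, h4, rfl⟩⟩
    simpa [src, tgt, hq1, hq2] using h3.2

theorem T2 {F A B Y : Dg dir} (hA : F * A = A) (hB : B * F = B) {p p' : P} (hd : dir p = dir p')
    {u v : ℕ × P} (hs : Start F A B p u) (h : ReflTransGen (G3 A Y B 0 1 2 3) u v)
    (he : Fin' F A B p' v) : cx F (A * Y * B) p p' := by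
  rcases hs with ⟨hp, q1, h1, rfl⟩ | ⟨hp, q1, h1, rfl⟩
  · have hp' : dir p' = true := hd ▸ hp
    rcases he with ⟨-, q2, h4, rfl⟩ | ⟨h', -⟩
    · have hq1 : dir q1 = true := h1.1 ▸ hp
      have hq2 : dir q2 = true := h4.1.symm ▸ hp'
      have h3 : rel A Y B q1 q2 := ⟨hq1.trans hq2.symm, by simpa [src, tgt, hq1, hq2] using h⟩
      have h5 : rel F (A * Y) (B * F) p q2 :=
        rel_comp_r hp (rel_ctx LRle.rfl (RLle_one _) h1) (by rw [hA, hB]; exact h3)
      exact rel_comp_r hp h5 (rel_ctx (LRle_one _) RLle.rfl h4)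
    · simp [hp'] at h'
  · have hp' : dir p' = false := hd ▸ hp
    rcases he with ⟨h', -⟩ | ⟨-, q2, h4, rfl⟩
    · simp [hp'] at h'
    · have hq1 : dir q1 = false := h1.1 ▸ hp
      have hq2 : dir q2 = false := h4.1.symm ▸ hp'
      have h3 : rel A Y B q1 q2 := ⟨hq1.trans hq2.symm, by simpa [src, tgt, hq1, hq2] using h⟩
      have h5 : rel F (A * Y) (B * F) q1 p' :=
        rel_comp_l hq1 (by rw [hA, hB]; exact h3) (rel_ctx LRle.rfl (RLle_one _) h4)
      exact rel_comp_l hp (rel_ctx (LRle_one _) RLle.rfl h1) h5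

/-- The strand of `p` can be routed through the class `c` of `E`. -/
def via (F A E B : Dg dir) (c p : P) : Prop :=
  ∃ u u0 u1 v, Start F A B p u ∧ ReflTransGen (G3 A E B 0 1 2 3) u (src dir 1 2 u0) ∧ In E u0 c ∧
    Out E c u1 ∧ ReflTransGen (G3 A E B 0 1 2 3) (tgt dir 1 2 u1) v ∧ Fin' F A B p v

theorem via_cx {F A E B : Dg dir} (hE : E * E = E) (hA : F * A = A) (hB : B * F = B)
    (hAB : A * E * B = F) {c p p' : P} (hc : c ∈ Pt E) (hd : dir p = dir p')
    (h1 : via F A E B c p) (h2 : via F A E B c p') : cx F F p p' := by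
  obtain ⟨u, u0, u1, v, a1, a2, a3, a4, a5, a6⟩ := h1
  obtain ⟨u', u0', u1', v', b1, b2, b3, b4, b5, b6⟩ := h2
  have hedge : E.r u0 u1' := unfactor hE hE a3 hc.1 b4
  have := T2 hA hB hd a1 ((a2.tail (Or.inr (Or.inl (place_src_tgt.2 hedge)))).trans b5) b6
  rwa [hAB] at this

theorem Fin'_sink {F A E B : Dg dir} {p : P} {v : ℕ × P} (h : Fin' F A B p v) :
    ∃ s, G3 A E B 0 1 2 3 v s ∧ s.1 = cond (dir p) 3 0 ∧ ∀ b, ¬ G3 A E B 0 1 2 3 s b := by
  rcases h with ⟨hp, q, h1, rfl⟩ | ⟨hp, q, h1, rfl⟩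
  · have hq : dir q = true := h1.1.symm ▸ hp
    obtain ⟨z, hz, hr⟩ := exit_r hq h1
    refine ⟨(3, z), Or.inr (Or.inr (by simp [place, hq, hz, hr])), by simp [hp], ?_⟩
    intro b hb
    rcases hb with hb | hb | hb <;> have := hb.1 <;> simp [hz] at this
  · have hq : dir q = false := h1.1.symm ▸ hp
    obtain ⟨z, hz, hr⟩ := exit_l hq h1
    refine ⟨(0, z), Or.inl (by simp [place, hq, hz, hr]), by simp [hp], ?_⟩
    intro b hb
    rcases hb with hb | hb | hb <;> have := hb.1 <;> simp [hz] at this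

theorem via_dir {F A E B : Dg dir} (hE : E * E = E) (dA : Det A) (dE : Det E) (dB : Det B)
    {c p p' : P} (hc : c ∈ Pt E) (h1 : via F A E B c p) (h2 : via F A E B c p') :
    dir p = dir p' := by
  obtain ⟨u, u0, u1, v, a1, a2, a3, a4, a5, a6⟩ := h1
  obtain ⟨u', u0', u1', v', b1, b2, b3, b4, b5, b6⟩ := h2
  have e1 : E.r u0 u1' := unfactor hE hE a3 hc.1 b4
  have e2 : E.r u0 u1 := unfactor hE hE a3 hc.1 a4
  obtain rfl : u1 = u1' := dE _ _ _ e2 e1
  obtain ⟨s, s1, s2, s3⟩ := Fin'_sink (E := E) a6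
  obtain ⟨s', t1, t2, t3⟩ := Fin'_sink (E := E) b6
  have := sink_unique (G3_det dA dE dB) (a5.tail s1) (b5.tail t1) s3 t3
  subst this
  have := s2.symm.trans t2
  revert this
  cases dir p <;> cases dir p' <;> simp

theorem survive [Finite P] {F A E B X : Dg dir} (hE : E * E = E) (hA : F * A = A) (hB : B * F = B)
    (hAB : A * E * B = F) (h1 : E * X = X) (h2 : X * E = X) {p : P} (hp : cx F F p p)
    (h : ∀ c ∈ supp E X, ¬ via F A E B c p) : cx F (A * X * B) p p := by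
  have hp' : cx F (A * E * B) p p := by rw [hAB]; exact hp
  obtain ⟨u, v, a1, a2, a3⟩ := T1 hA hB hp'
  refine T2 hA hB rfl a1 (rtg_survive a2 (fun a b ha hab hb => ?_)) a3
  rcases hab with hab | hab | hab
  · exact Or.inl hab
  · refine Or.inr (Or.inl ⟨hab.1, hab.2.1, ?_⟩)
    obtain ⟨e1, e2, e3⟩ := place_iff.1 hab
    by_cases hd : dir a.2 = dir b.2
    · obtain ⟨c, hc, hi, ho⟩ := factor hE hd e3
      refine unfactor h1 h2 hi ?_ ho
      by_contra hcon
      exact h c ⟨hc, hcon⟩ ⟨u, a.2, b.2, v, a1, e1 ▸ ha, hi, ho, e2 ▸ hb, a3⟩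
    · exact r_of_ne h1 h2 hd e3
  · exact Or.inr (Or.inr hab)

theorem transfer [Finite P] {F A E B : Dg dir} (hE : E * E = E) (hA : F * A = A) (hB : B * F = B)
    (hAB : A * E * B = F) (k : ℕ) (hk : k = 2 ∨ (k = 1 ∧ Det A ∧ Det E ∧ Det B)) (W : Set P) :
    ∃ W' : Set P, W'.ncard ≤ k * W.ncard ∧
      ∀ X, E * X = X → X * E = X → supp E X ⊆ W → supp F (A * X * B) ⊆ W' := by
  classical
  let W' : Set P := {p | p ∈ Pt F ∧ ∃ c, c ∈ W ∧ c ∈ Pt E ∧ via F A E B c p}
  refine ⟨W', ?_, ?_⟩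
  · let f : P → P := fun p => if h : p ∈ W' then h.2.choose else p
    have hf : ∀ p ∈ W', f p ∈ W ∧ f p ∈ Pt E ∧ via F A E B (f p) p := by
      intro p hp
      simp only [f, dif_pos hp]
      exact hp.2.choose_spec
    have huniq : ∀ p ∈ W', ∀ p' ∈ W', f p = f p' → dir p = dir p' → p = p' := by
      intro p hp p' hp' e hd
      have a := hf p hp
      have b := hf p' hp'
      rw [← e] at b
      exact Pt_unique hp.1 hp'.1 (via_cx hE hA hB hAB a.2.1 hd a.2.2 b.2.2)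
        (via_cx hE hA hB hAB a.2.1 hd.symm b.2.2 a.2.2)
    rcases hk with rfl | ⟨rfl, dA, dE, dB⟩
    · have := Set.ncard_le_ncard_of_injOn (s := W') (t := W ×ˢ (Set.univ : Set Bool))
        (fun p => (f p, dir p)) (fun p hp => ⟨(hf p hp).1, trivial⟩)
        (fun p hp p' hp' e => huniq p hp p' hp' (congrArg Prod.fst e) (congrArg Prod.snd e))
      rw [Set.ncard_prod, Set.ncard_univ] at this
      simp only [Nat.card_eq_fintype_card, Fintype.card_bool] at this
      omega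
    · have := Set.ncard_le_ncard_of_injOn (s := W') (t := W) f (fun p hp => (hf p hp).1)
        (fun p hp p' hp' e => huniq p hp p' hp' e (by
          have a := hf p hp
          have b := hf p' hp'
          rw [← e] at b
          exact via_dir hE dA dE dB a.2.1 a.2.2 b.2.2))
      omega
  · intro X h1 h2 hX p hp
    refine ⟨hp.1, ?_⟩
    by_contra hcon
    refine hp.2 (survive hE hA hB hAB h1 h2 hp.1.1 (fun c hc hv => hcon ⟨c, hX hc, hc.1, hv⟩))

/-! ### The potential -/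

/-- Loop classes of `E` containing no point of `O`. -/
def Bd (E : Dg dir) (O : Set P) : Set P :=
  {c | c ∈ Pt E ∧ ∀ o ∈ O, ¬ (cx E E c o ∧ cx E E o c)}

theorem crossing {F : Dg dir} (hF : F * F = F) {c : P} (h : cx F F c c) :
    ∃ p1 p2, cx F 1 c p1 ∧ F.r p1 p2 ∧ dir p1 = dir p2 ∧ cx F 1 p2 c := by
  cases hc : dir c
  · have h0 : rel F (F * 1) F c c := by rw [mul_one]; exact h
    obtain ⟨p1, h1, h2⟩ := rel_last_l hc h0
    rw [hF] at h1
    have hp1 : dir p1 = false := h1.1 ▸ hc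
    have h3 : rel F (1 * F) 1 p1 c := by rw [one_mul]; exact h2
    obtain ⟨p2, h4, h5⟩ := rel_first_l hp1 h3
    rw [mul_one] at h5
    exact ⟨p1, p2, h1, r_of_rel h4, h4.1, h5⟩
  · have h0 : rel F (1 * F) F c c := by rw [one_mul]; exact h
    obtain ⟨p1, h1, h2⟩ := rel_last_r hc h0
    rw [hF] at h1
    have hp1 : dir p1 = true := h1.1 ▸ hc
    have h3 : rel 1 (F * 1) F p1 c := by rw [mul_one]; exact h2
    obtain ⟨p2, h4, h5⟩ := rel_first_r hp1 h3
    rw [one_mul] at h5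
    exact ⟨p1, p2, h1, r_of_rel h4, h4.1, h5⟩

theorem middle [Finite P] {E F : Dg dir} (hE : E * E = E) (h1 : E * F = F) (h2 : F * E = F)
    {p1 p2 : P} (hd : dir p1 = dir p2) (h : F.r p1 p2) :
    ∃ ci ∈ Pt E, ∃ co ∈ Pt E, cx E E p1 ci ∧ cx E F ci co ∧ cx E E co p2 := by
  have key : ∃ a b, rel 1 E 1 p1 a ∧ cx E F a b ∧ rel 1 E 1 b p2 := by
    cases hp : dir p1
    · have h0 : rel 1 (E * F * E) 1 p1 p2 := by rw [h1, h2]; exact rel_of_r _ _ hd h
      obtain ⟨a, a1, a2⟩ := rel_first_l hp h0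
      have ha : dir a = false := a1.1 ▸ hp
      obtain ⟨b, b1, b2⟩ := rel_last_l ha a2
      rw [one_mul, mul_one] at b1
      exact ⟨a, b, a1, b1, b2⟩
    · have h0 : rel 1 (E * (F * E)) 1 p1 p2 := by rw [h2, h1]; exact rel_of_r _ _ hd h
      obtain ⟨a, a1, a2⟩ := rel_first_r hp h0
      have ha : dir a = true := a1.1 ▸ hp
      obtain ⟨b, b1, b2⟩ := rel_last_r ha a2
      rw [one_mul, mul_one] at b1
      exact ⟨a, b, a1, b1, b2⟩
  obtain ⟨a, b, a1, a2, a3⟩ := key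
  obtain ⟨ci, hci, c1, c2⟩ := cx_through hE (p := p1) (q := a)
    (rel_ctx (LRle_one _) (RLle_one _) a1)
  obtain ⟨co, hco, d1, d2⟩ := cx_through hE (p := b) (q := p2)
    (rel_ctx (LRle_one _) (RLle_one _) a3)
  have gE := good_abs hE hE
  have gF := good_loc h1 h2
  exact ⟨ci, hci, co, hco, c1, cx_comp gF gE h2 h1 (cx_comp gE gF h1 h2 c2 a2) d1, d2⟩

theorem cx_lower {E F X : Dg dir} (h1 : E * F = F) (h2 : F * E = F) {p q : P}
    (h : cx E X p q) : cx F X p q := rel_ctx (LRle_of h2) (RLle_of h1) h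

theorem drop [Finite P] {E F : Dg dir} (hE : E * E = E) (hF : F * F = F) (h1 : E * F = F)
    (h2 : F * E = F) (O : Set P) (hO : ∀ o ∈ O, cx E F o o) :
    (supp E F).ncard + 2 * (Bd F O).ncard ≤ 2 * (Bd E O).ncard := by
  classical
  have gE := good_abs hE hE
  have gF := good_loc h1 h2
  have fF := good_abs hF hF
  have fE : good F E := good_abs h2 h1
  have f1 : good F 1 := good_abs (mul_one F) (one_mul F)
  have FE : ∀ {p q r}, cx F F p q → cx E E q r → cx F F p r := fun a b =>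
    cx_comp fF fE h2 h1 a (cx_lower h1 h2 b)
  have EF : ∀ {p q r}, cx E E p q → cx F F q r → cx F F p r := fun a b =>
    cx_comp fE fF h1 h2 (cx_lower h1 h2 a) b
  have F1 : ∀ {p q r}, cx F F p q → cx F 1 q r → cx F F p r := fun a b =>
    cx_comp fF f1 (mul_one F) (one_mul F) a b
  have F1' : ∀ {p q r}, cx F 1 p q → cx F F q r → cx F F p r := fun a b =>
    cx_comp f1 fF (one_mul F) (mul_one F) a b
  have hZ : supp E F ⊆ Bd E O := by
    intro c hc
    refine ⟨hc.1, fun o ho h => hc.2 ?_⟩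
    exact cx_comp gF gE h2 h1 (cx_comp gE gF h1 h2 h.1 (hO o ho)) h.2
  have hex : ∀ c ∈ Bd F O, ∃ ci co, ci ∈ Bd E O ∧ co ∈ Bd E O ∧ cx E F ci co ∧
      (cx F F c ci ∧ cx F F ci c) ∧ (cx F F c co ∧ cx F F co c) := by
    intro c hc
    obtain ⟨p1, p2, a1, a2, a3, a4⟩ := crossing hF hc.1.1
    obtain ⟨ci, hci, co, hco, b1, b2, b3⟩ := middle hE h1 h2 a3 a2
    have c1 : cx F F c ci := FE (F1 hc.1.1 a1) b1
    have c2 : cx F F co c := EF b3 (F1' a4 hc.1.1)
    have c3 : cx F F ci co := cx_lower h1 h2 b2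
    have c4 : cx F F ci c := cx_trans hF c3 c2
    have c5 : cx F F c co := cx_trans hF c1 c3
    refine ⟨ci, co, ⟨hci, fun o ho h => hc.2 o ho ⟨FE c1 h.1, EF h.2 c4⟩⟩,
      ⟨hco, fun o ho h => hc.2 o ho ⟨FE c5 h.1, EF h.2 c2⟩⟩, b2, ⟨c1, c4⟩, ⟨c5, c2⟩⟩
  choose! fi fo hfi hfo hx hi ho using hex
  have huniq : ∀ c ∈ Bd F O, ∀ c' ∈ Bd F O, ∀ z, (cx F F c z ∧ cx F F z c) →
      (cx F F c' z ∧ cx F F z c') → c = c' := fun c hc c' hc' z a b =>
    Pt_unique hc.1 hc'.1 (cx_trans hF a.1 b.2) (cx_trans hF b.1 a.2)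
  -- injection of two copies of `Bd F O` and one copy of the support into two copies of `Bd E O`
  let g : P × Bool → P × Bool := fun x =>
    if fi x.1 = fo x.1 then (fi x.1, x.2) else (cond x.2 (fo x.1) (fi x.1), false)
  have hg1 : ∀ x ∈ Bd F O ×ˢ (Set.univ : Set Bool),
      g x ∈ (Bd E O ×ˢ (Set.univ : Set Bool)) \ (supp E F ×ˢ ({true} : Set Bool)) := by
    rintro ⟨c, b⟩ ⟨hc, -⟩
    simp only at hc
    by_cases e : fi c = fo c
    · simp only [g, if_pos e]
      refine ⟨⟨hfi c hc, trivial⟩, fun h => h.1.2 ?_⟩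
      have := hx c hc
      rwa [← e] at this
    · simp only [g, if_neg e]
      refine ⟨⟨?_, trivial⟩, fun h => by simpa using h.2⟩
      cases b
      · exact hfi c hc
      · exact hfo c hc
  have hg0 : ∀ c ∈ Bd F O, ∀ b, cx F F c (g (c, b)).1 ∧ cx F F (g (c, b)).1 c := by
    intro c hc b
    by_cases e : fi c = fo c
    · simp only [g, if_pos e]; exact hi c hc
    · simp only [g, if_neg e]
      cases b
      · exact hi c hc
      · exact ho c hc
  have hg2 : Set.InjOn g (Bd F O ×ˢ (Set.univ : Set Bool)) := by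
    rintro ⟨c, b⟩ ⟨hc, -⟩ ⟨c', b'⟩ ⟨hc', -⟩ e
    simp only at hc hc'
    have e1 : c = c' := huniq c hc c' hc' _ (hg0 c hc b) (by rw [e]; exact hg0 c' hc' b')
    subst e1
    by_cases e2 : fi c = fo c
    · simp only [g, if_pos e2, Prod.mk.injEq, true_and] at e
      rw [e]
    · simp only [g, if_neg e2, Prod.mk.injEq, and_true] at e
      cases b <;> cases b' <;> simp_all
  have hcard := Set.ncard_le_ncard_of_injOn g hg1 hg2
  have hsub : supp E F ×ˢ ({true} : Set Bool) ⊆ Bd E O ×ˢ (Set.univ : Set Bool) :=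
    Set.prod_mono hZ (Set.subset_univ _)
  have hle := Set.ncard_le_ncard hsub
  rw [Set.ncard_sdiff hsub] at hcard
  simp only [Set.ncard_prod, Set.ncard_univ, Nat.card_eq_fintype_card, Fintype.card_bool,
    Set.ncard_singleton] at hcard hle
  omega

theorem Bd_self {E : Dg dir} (W : Set P) : Bd E (Pt E \ W) ⊆ W := by
  intro c hc
  by_contra hcon
  exact hc.2 c ⟨hc.1, hcon⟩ ⟨hc.1.1, hc.1.1⟩

end Crest.Agent.R294
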